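import Mathlib

namespace Vale.Agent.P249x

open Finset MeasureTheory

noncomputable def N (p : ℝ) {M : ℕ} (a b : Fin M → ℝ) : ℝ := (∑ k, |a k - b k| ^ p) ^ (1/p)

section N
variable {p : ℝ} {M : ℕ} (a b c : Fin M → ℝ)

lemma N_nonneg : 0 ≤ N p a b := Real.rpow_nonneg (sum_nonneg fun _ _ => by positivity) _

lemma N_comm : N p a b = N p b a := by simp only [N, abs_sub_comm]

lemma N_self (hp : 0 < p) : N p a a = 0 := by simp [N, Real.zero_rpow hp.ne', Real.zero_rpow (inv_ne_zero hp.ne')]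

lemma N_rpow (hp : 0 < p) : N p a b ^ p = ∑ k, |a k - b k| ^ p := by
  rw [N, ← Real.rpow_mul (sum_nonneg fun _ _ => by positivity), one_div_mul_cancel hp.ne',
    Real.rpow_one]

lemma abs_le_N (hp : 0 < p) (k : Fin M) : |a k - b k| ≤ N p a b := by
  have h := single_le_sum (f := fun k => |a k - b k| ^ p) (fun i _ => by positivity) (mem_univ k)
  rw [← N_rpow a b hp] at h
  exact (Real.rpow_le_rpow_iff (abs_nonneg _) (N_nonneg a b) hp).1 h

lemma N_triangle (hp : 1 ≤ p) : N p a c ≤ N p a b + N p b c := by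
  have h := Real.Lp_add_le univ (fun k => a k - b k) (fun k => b k - c k) hp
  simpa only [N, sub_add_sub_cancel] using h

lemma N_lip (hp : 1 ≤ p) : |N p a c - N p b c| ≤ N p a b := by
  rw [abs_sub_le_iff]
  constructor
  · linarith [N_triangle a b c hp]
  · linarith [N_triangle b a c hp, N_comm (p := p) a b]

end N

/-- Probability of an event in a finite weighted space. -/
noncomputable def Pr {Ω : Type*} [Fintype Ω] (w : Ω → ℝ) (P : Ω → Prop) : ℝ := by
  classical exact ∑ o, if P o then w o else 0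

section Pr
variable {Ω : Type*} [Fintype Ω] {w : Ω → ℝ} {P Q : Ω → Prop}

lemma Pr_def [DecidablePred P] : Pr w P = ∑ o, if P o then w o else 0 := by
  unfold Pr; congr! with o

lemma Pr_nonneg (hw : ∀ o, 0 ≤ w o) : 0 ≤ Pr w P := by
  classical rw [Pr_def]; exact sum_nonneg fun o _ => by split_ifs <;> simp [hw o]

lemma Pr_mono (hw : ∀ o, 0 ≤ w o) (h : ∀ o, P o → Q o) : Pr w P ≤ Pr w Q := by
  classical
  rw [Pr_def, Pr_def]; refine sum_le_sum fun o _ => ?_
  by_cases hp : P o
  · simp [hp, h o hp]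
  · simp only [if_neg hp]; split_ifs <;> simp [hw o]

lemma Pr_or (hw : ∀ o, 0 ≤ w o) : Pr w (fun o => P o ∨ Q o) ≤ Pr w P + Pr w Q := by
  classical
  rw [Pr_def, Pr_def, Pr_def, ← sum_add_distrib]; refine sum_le_sum fun o _ => ?_
  by_cases hp : P o <;> by_cases hq : Q o <;> simp [hp, hq, hw o]

lemma Pr_biUnion {κ : Type*} (hw : ∀ o, 0 ≤ w o) (s : Finset κ) (E : κ → Ω → Prop) :
    Pr w (fun o => ∃ e ∈ s, E e o) ≤ ∑ e ∈ s, Pr w (E e) := by
  classical
  induction s using Finset.induction with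
  | empty => simp [Pr_def]
  | insert e s he ih =>
    rw [sum_insert he]
    refine (Pr_mono hw ?_).trans ((Pr_or hw (P := E e) (Q := fun o => ∃ e ∈ s, E e o)).trans
      (add_le_add le_rfl ih))
    simp

lemma Pr_le_sum (hw : ∀ o, 0 ≤ w o) : Pr w P ≤ ∑ o, w o := by
  classical rw [Pr_def]; exact sum_le_sum fun o _ => by split_ifs <;> simp [hw o]

lemma Pr_finset [DecidableEq Ω] (A : Finset Ω) : Pr w (· ∈ A) = ∑ o ∈ A, w o := by
  rw [Pr_def, sum_ite_mem, univ_inter]

lemma Pr_prod {Ω' : Type*} [Fintype Ω'] {w' : Ω' → ℝ} (P : Ω × Ω' → Prop) :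
    Pr (fun o : Ω × Ω' => w o.1 * w' o.2) P = ∑ o, w o * Pr w' (fun o' => P (o, o')) := by
  classical
  rw [Pr_def, Fintype.sum_prod_type]
  refine sum_congr rfl fun o _ => ?_
  rw [Pr_def, mul_sum]; exact sum_congr rfl fun o' _ => by split_ifs <;> simp

end Pr

/-- Finite model of finitely many events in a probability space. -/
theorem atoms {G ι : Type*} [MeasurableSpace G] [Fintype ι] [DecidableEq ι] (μ : Measure G)
    [IsProbabilityMeasure μ] (A : ι → Set G) (hA : ∀ i, MeasurableSet (A i)) :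
    ∃ w : Finset ι → ℝ, (∀ S, 0 ≤ w S) ∧ ∑ S, w S = 1 ∧
      ∀ (P : Finset ι → Prop) (E : Set G),
        (∀ g (S : Finset ι), (∀ i, i ∈ S ↔ g ∈ A i) → (P S ↔ g ∈ E)) → Pr w P = μ.real E := by
  classical
  let sig : G → Finset ι := fun g => univ.filter fun i => g ∈ A i
  have hm : ∀ S : Finset ι, MeasurableSet (sig ⁻¹' {S}) := by
    intro S
    have : sig ⁻¹' {S} = ⋂ i, if i ∈ S then A i else (A i)ᶜ := by
      ext g
      simp only [Set.mem_preimage, Set.mem_singleton_iff, Set.mem_iInter]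
      constructor
      · intro h i; subst h; by_cases hi : g ∈ A i <;> simp [sig, hi]
      · intro h; ext i
        have := h i
        by_cases hi : i ∈ S <;> simp_all [sig]
    rw [this]
    exact MeasurableSet.iInter fun i => by split_ifs <;> [exact hA i; exact (hA i).compl]
  refine ⟨fun S => μ.real (sig ⁻¹' {S}), fun S => measureReal_nonneg, ?_, fun P E h => ?_⟩
  · rw [sum_measureReal_preimage_singleton univ fun S _ => hm S]
    simp
  · rw [Pr_def, ← sum_filter, sum_measureReal_preimage_singleton _ fun S _ => hm S]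
    congr 1
    ext g
    simpa using h g (sig g) (fun i => by simp [sig])

section pick
variable {α : Type*} [Fintype α] [DecidableEq α]

/-- First trial landing in `A`, with its value. -/
def pick : ∀ L, (Fin L → α) → Finset α → Option (ℕ × α)
  | 0, _, _ => none
  | L + 1, ω, A => if ω 0 ∈ A then some (0, ω 0)
      else (pick L (Fin.tail ω) A).map fun z => (z.1 + 1, z.2)

/-- Product weights. -/
def wpi (w : α → ℝ) (L : ℕ) (ω : Fin L → α) : ℝ := ∏ l, w (ω l)

variable {w : α → ℝ}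

lemma wpi_nonneg (hw : ∀ a, 0 ≤ w a) (L : ℕ) (ω : Fin L → α) : 0 ≤ wpi w L ω :=
  prod_nonneg fun _ _ => hw _

lemma sum_succ (F : ∀ L, (Fin L → α) → ℝ) (L : ℕ) :
    ∑ ω, F (L + 1) ω = ∑ a, ∑ ω, F (L + 1) (Fin.cons a ω) := by
  rw [← (Fin.consEquiv fun _ : Fin (L + 1) => α).sum_comp, Fintype.sum_prod_type]
  rfl

lemma sum_wpi (hw1 : ∑ a, w a = 1) : ∀ L, ∑ ω, wpi w L ω = 1
  | 0 => by simp [wpi]
  | L + 1 => by
    rw [sum_succ (fun L ω => wpi w L ω)]
    simp only [wpi, Fin.prod_univ_succ, Fin.cons_zero, Fin.cons_succ, ← mul_sum]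
    have := sum_wpi hw1 L
    simp only [wpi] at this
    simp [this, hw1]

lemma Pr_succ (L : ℕ) (P : (Fin (L + 1) → α) → Prop) :
    Pr (wpi w (L + 1)) P = ∑ a, w a * Pr (wpi w L) fun ω => P (Fin.cons a ω) := by
  classical
  rw [Pr_def, ← (Fin.consEquiv fun _ : Fin (L + 1) => α).sum_comp, Fintype.sum_prod_type]
  refine sum_congr rfl fun a _ => ?_
  rw [Pr_def, mul_sum]
  refine sum_congr rfl fun ω _ => ?_
  have e : (Fin.consEquiv fun _ : Fin (L + 1) => α) (a, ω) = Fin.cons a ω := rfl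
  simp only [e, wpi, Fin.prod_univ_succ, Fin.cons_zero, Fin.cons_succ]
  split_ifs <;> simp

/-- Recursion principle for events defined through `pick`. -/
lemma pick_bound (hw : ∀ a, 0 ≤ w a) (hw1 : ∑ a, w a = 1)
    (Q : ∀ L, (Fin L → α) → Prop) (U Bd : Finset α)
    (hrec : ∀ L a ω, Q (L + 1) (Fin.cons a ω) → a ∈ Bd ∨ (a ∉ U ∧ Q L ω))
    (hU : 0 < ∑ a ∈ U, w a) (hQ0 : ∀ ω, ¬ Q 0 ω) :
    ∀ L, Pr (wpi w L) (Q L) ≤ (∑ a ∈ Bd, w a) / ∑ a ∈ U, w a := by
  classical
  intro L
  have hb : 0 ≤ ∑ a ∈ Bd, w a := sum_nonneg fun a _ => hw a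
  induction L with
  | zero => rw [Pr_def]; simp [hQ0]; positivity
  | succ L ih =>
    rw [Pr_succ]
    set u := ∑ a ∈ U, w a
    set b := ∑ a ∈ Bd, w a
    calc _ ≤ ∑ a, ((if a ∈ Bd then w a else 0) + (if a ∈ U then 0 else w a) * (b / u)) := by
          refine sum_le_sum fun a _ => ?_
          have h1 : Pr (wpi w L) (fun ω => Q (L + 1) (Fin.cons a ω)) ≤ 1 :=
            (Pr_le_sum (wpi_nonneg hw L)).trans_eq (sum_wpi hw1 L)
          have n1 : 0 ≤ (if a ∈ U then 0 else w a) * (b / u) := by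
            refine mul_nonneg ?_ (by positivity); split_ifs <;> simp [hw a]
          by_cases ha : a ∈ Bd
          · rw [if_pos ha]
            linarith [mul_le_mul_of_nonneg_left h1 (hw a)]
          rw [if_neg ha, zero_add]
          by_cases hu : a ∈ U
          · have : Pr (wpi w L) (fun ω => Q (L + 1) (Fin.cons a ω)) = 0 := by
              rw [Pr_def]; refine sum_eq_zero fun ω _ => if_neg fun h => ?_
              rcases hrec L a ω h with h' | h'
              · exact ha h'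
              · exact h'.1 hu
            simp [this, hu]
          · rw [if_neg hu]
            refine mul_le_mul_of_nonneg_left (le_trans (Pr_mono (wpi_nonneg hw L) ?_) ih) (hw a)
            intro ω h
            exact ((hrec L a ω h).resolve_left ha).2
      _ = b + (1 - u) * (b / u) := by
          rw [sum_add_distrib, ← sum_mul, sum_ite_mem, univ_inter]
          congr 2
          have hu' : u = ∑ a, if a ∈ U then w a else 0 := by rw [sum_ite_mem, univ_inter]
          rw [hu', ← hw1, ← sum_sub_distrib]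
          exact sum_congr rfl fun a _ => by split_ifs <;> simp
      _ = b / u := by field_simp; ring

lemma pick_succ (L : ℕ) (a : α) (ω : Fin L → α) (A : Finset α) :
    pick (L + 1) (Fin.cons a ω) A =
      if a ∈ A then some (0, a) else (pick L ω A).map fun z => (z.1 + 1, z.2) := by
  simp [pick, Fin.tail_cons]

lemma map_inj : Function.Injective fun z : ℕ × α => (z.1 + 1, z.2) := by
  intro a b h; simp [Prod.ext_iff] at h ⊢; exact h

lemma pick_ne (hw : ∀ a, 0 ≤ w a) (hw1 : ∑ a, w a = 1) (A B : Finset α)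
    (hU : 0 < ∑ a ∈ A ∪ B, w a) (L : ℕ) :
    Pr (wpi w L) (fun ω => pick L ω A ≠ pick L ω B) ≤
      ((∑ a ∈ A \ B, w a) + ∑ a ∈ B \ A, w a) / ∑ a ∈ A ∪ B, w a := by
  refine (pick_bound hw hw1 (fun L ω => pick L ω A ≠ pick L ω B) (A ∪ B) ((A \ B) ∪ (B \ A))
    ?_ hU (fun ω => by simp [pick]) L).trans (le_of_eq ?_)
  · intro L a ω h
    simp only [pick_succ] at h
    by_cases ha : a ∈ A <;> by_cases hb : a ∈ B <;> simp [ha, hb] at h ⊢
    exact fun e => h (by rw [e])
  · rw [sum_union (by simp [disjoint_left]; tauto)]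

lemma pick_snd (hw : ∀ a, 0 ≤ w a) (hw1 : ∑ a, w a = 1) (A : Finset α) (R : α → Prop)
    [DecidablePred R] (hA : 0 < ∑ a ∈ A, w a) (L : ℕ) :
    Pr (wpi w L) (fun ω => ∃ z, pick L ω A = some z ∧ R z.2) ≤
      (∑ a ∈ A.filter R, w a) / ∑ a ∈ A, w a := by
  refine pick_bound hw hw1 (fun L ω => ∃ z, pick L ω A = some z ∧ R z.2) A (A.filter R) ?_ hA
    (fun ω => by simp [pick]) L
  intro L a ω h
  simp only [pick_succ] at h
  by_cases ha : a ∈ A
  · simp [ha] at h ⊢; exact h
  · simp only [if_neg ha, Option.map_eq_some_iff] at h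
    obtain ⟨z, ⟨y, hy, rfl⟩, hR⟩ := h
    exact Or.inr ⟨ha, y, hy, hR⟩

lemma pick_eq (hw : ∀ a, 0 ≤ w a) (hw1 : ∑ a, w a = 1) (A B : Finset α)
    (hA : 0 < ∑ a ∈ A, w a) (L : ℕ) :
    Pr (wpi w L) (fun ω => pick L ω A = pick L ω B ∧ pick L ω A ≠ none) ≤
      (∑ a ∈ A ∩ B, w a) / ∑ a ∈ A, w a := by
  refine pick_bound hw hw1 (fun L ω => pick L ω A = pick L ω B ∧ pick L ω A ≠ none) A (A ∩ B) ?_ hA
    (fun ω => by simp [pick]) L
  intro L a ω h
  simp only [pick_succ] at h
  by_cases ha : a ∈ A <;> by_cases hb : a ∈ B <;> simp [ha, hb] at h ⊢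
  all_goals first
    | exact ⟨Option.map_injective map_inj h.1, h.2⟩
    | (cases hc : pick L ω A <;> cases hc' : pick L ω B <;> simp_all)

lemma pick_none (A : Finset α) (hw1 : ∑ a, w a = 1) : ∀ L,
    Pr (wpi w L) (fun ω => pick L ω A = none) = (1 - ∑ a ∈ A, w a) ^ L
  | 0 => by simp [Pr_def, pick, wpi]
  | L + 1 => by
    rw [Pr_succ, pow_succ, ← pick_none A hw1 L, mul_comm]
    have : ∀ a, w a * Pr (wpi w L) (fun ω => pick (L + 1) (Fin.cons a ω) A = none) =
        (if a ∈ A then 0 else w a) * Pr (wpi w L) (fun ω => pick L ω A = none) := by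
      intro a
      by_cases ha : a ∈ A
      · simp [ha, pick_succ, Pr_def]
      · simp [ha, pick_succ]
    rw [sum_congr rfl fun a _ => this a, ← sum_mul]
    congr 1
    have hu' : (∑ a ∈ A, w a) = ∑ a, if a ∈ A then w a else 0 := by rw [sum_ite_mem, univ_inter]
    rw [hu', ← hw1, ← sum_sub_distrib]
    exact sum_congr rfl fun a _ => by split_ifs <;> simp

end pick

end Vale.Agent.P249x
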