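import Vale.Agent.P249x.Basic

namespace Vale.Agent.P249x

open Finset Filter MeasureTheory ProbabilityTheory
open scoped RealInnerProductSpace

/-- Standard Gaussian tail. -/
noncomputable def tail (a : ℝ) : ℝ := (gaussianReal 0 1).real (Set.Ici a)

lemma tail_le {b : ℝ} (hb : 0 ≤ b) : tail b ≤ Real.exp (-(b ^ 2 / 2)) := by
  have h := measure_ge_le_exp_mul_mgf (μ := gaussianReal 0 1) (X := id) b hb
    (integrable_exp_mul_gaussianReal b)
  rw [mgf_id_gaussianReal] at h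
  refine le_trans h (le_of_eq ?_)
  simp only [NNReal.coe_one, zero_mul, zero_add, one_mul, ← Real.exp_add]
  ring_nf

lemma pdf_eq (x : ℝ) : gaussianPDFReal 0 1 x = (√(2 * Real.pi))⁻¹ * Real.exp (-(x ^ 2 / 2)) := by
  simp [gaussianPDFReal_def, neg_div]

lemma real_gauss (s : Set ℝ) : (gaussianReal 0 1).real s = ∫ x in s, gaussianPDFReal 0 1 x := by
  rw [measureReal_def, gaussianReal_apply_eq_integral _ one_ne_zero,
    ENNReal.toReal_ofReal (integral_nonneg fun x => gaussianPDFReal_nonneg _ _ _)]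

lemma interval_le {a b : ℝ} (ha : 0 ≤ a) (hab : a ≤ b) :
    (gaussianReal 0 1).real (Set.Ico a b) ≤ (b - a) * ((√(2 * Real.pi))⁻¹ * Real.exp (-(a ^ 2 / 2))) := by
  rw [real_gauss]
  calc ∫ x in Set.Ico a b, gaussianPDFReal 0 1 x
      ≤ ∫ x in Set.Ico a b, (√(2 * Real.pi))⁻¹ * Real.exp (-(a ^ 2 / 2)) := by
        refine setIntegral_mono_on (integrable_gaussianPDFReal 0 1).integrableOn
          (integrableOn_const (measure_Ico_lt_top.ne)) measurableSet_Ico fun x hx => ?_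
        rw [pdf_eq]; gcongr; exact hx.1
    _ = _ := by rw [setIntegral_const, Real.volume_real_Ico_of_le hab, smul_eq_mul]

lemma tail_ge {a : ℝ} (ha : 1 ≤ a) :
    (√(2 * Real.pi))⁻¹ * Real.exp (-(3/2)) * Real.exp (-(a ^ 2 / 2)) / a ≤ tail a := by
  have ha0 : 0 < a := by linarith
  have h1 : a ≤ a + 1 / a := by linarith [show 0 ≤ 1 / a by positivity]
  refine le_trans ?_ (measureReal_mono (Set.Ico_subset_Ici_self : Set.Ico a (a + 1 / a) ⊆ _))
  rw [real_gauss]
  calc _ = ∫ x in Set.Ico a (a + 1 / a),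
        (√(2 * Real.pi))⁻¹ * Real.exp (-(3/2)) * Real.exp (-(a ^ 2 / 2)) := by
        rw [setIntegral_const, Real.volume_real_Ico_of_le h1, smul_eq_mul]; ring
    _ ≤ _ := by
        refine setIntegral_mono_on (integrableOn_const (measure_Ico_lt_top.ne))
          (integrable_gaussianPDFReal 0 1).integrableOn measurableSet_Ico fun x hx => ?_
        rw [pdf_eq, mul_assoc, ← Real.exp_add]
        gcongr
        have hx2 : x ^ 2 ≤ (a + 1 / a) ^ 2 := pow_le_pow_left₀ (by linarith [hx.1]) hx.2.le 2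
        have e : (a + 1 / a) ^ 2 = a ^ 2 + 2 + (1 / a) ^ 2 := by field_simp; ring
        have : (1 / a) ^ 2 ≤ 1 := pow_le_one₀ (by positivity) ((div_le_one ha0).2 ha)
        linarith

section space
variable {ι : Type*} [Fintype ι]

/-- Law of a linear functional. -/
lemma law (v : EuclideanSpace ℝ ι) :
    (stdGaussian (EuclideanSpace ℝ ι)).map (fun g => ⟪v, g⟫) =
      (gaussianReal 0 1).map (fun t => ‖v‖ * t) := by
  rw [show (fun g : EuclideanSpace ℝ ι => ⟪v, g⟫) = ⇑(innerSL ℝ v) from rfl,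
    IsGaussian.map_eq_gaussianReal, integral_strongDual_stdGaussian, variance_dual_stdGaussian,
    gaussianReal_map_const_mul, mul_zero, mul_one, innerSL_apply_norm]
  congr 1
  ext
  simp

lemma law_set (v : EuclideanSpace ℝ ι) {s : Set ℝ} (hs : MeasurableSet s) :
    (stdGaussian (EuclideanSpace ℝ ι)).real ((fun g => ⟪v, g⟫) ⁻¹' s) =
      (gaussianReal 0 1).real ((fun t => ‖v‖ * t) ⁻¹' s) := by
  rw [← map_measureReal_apply (by fun_prop) hs, law, map_measureReal_apply (by fun_prop) hs]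

lemma law_unit {v : EuclideanSpace ℝ ι} (hv : ‖v‖ = 1) {s : Set ℝ} (hs : MeasurableSet s) :
    (stdGaussian (EuclideanSpace ℝ ι)).real ((fun g => ⟪v, g⟫) ⁻¹' s) = (gaussianReal 0 1).real s := by
  rw [law_set v hs]; simp [hv]

lemma tail_any (v : EuclideanSpace ℝ ι) {b : ℝ} (hb : 0 < b) {S : ℝ} (hS : 0 < S) (hvS : ‖v‖ ^ 2 ≤ S) :
    (stdGaussian (EuclideanSpace ℝ ι)).real ((fun g => ⟪v, g⟫) ⁻¹' Set.Ici b) ≤
      Real.exp (-(b ^ 2 / (2 * S))) := by
  rw [law_set v measurableSet_Ici]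
  rcases (norm_nonneg v).eq_or_lt with h | h
  · rw [← h]
    have : (fun t : ℝ => 0 * t) ⁻¹' Set.Ici b = ∅ := by
      ext t; simp [hb]
    rw [this, measureReal_empty]; exact (Real.exp_pos _).le
  · have : (fun t : ℝ => ‖v‖ * t) ⁻¹' Set.Ici b = Set.Ici (b / ‖v‖) := by
      ext t; simp [div_le_iff₀ h, mul_comm]
    rw [this]
    refine (tail_le (by positivity)).trans (Real.exp_le_exp.2 ?_)
    rw [neg_le_neg_iff, div_pow, div_div, mul_comm (‖v‖ ^ 2)]
    exact div_le_div_of_nonneg_left (by positivity) (by positivity) (by linarith)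

/-- Nearby unit vectors: their cap events differ little. -/
lemma cap_near {u v : EuclideanSpace ℝ ι} (hu : ‖u‖ = 1) (hv : ‖v‖ = 1) {a κ D : ℝ} (ha : 1 ≤ a)
    (hκ : 0 < κ) (hD : 0 < D) (hd : ‖u - v‖ ^ 2 ≤ D ^ 2) (hθ : 1 ≤ κ / (2 * (a * D) ^ 2))
    (hs : κ / (2 * (a * D) ^ 2) * κ / a ^ 2 ≤ 1/4) :
    (stdGaussian (EuclideanSpace ℝ ι)).real {g | a ≤ ⟪u, g⟫ ∧ ¬ a ≤ ⟪v, g⟫} ≤
      κ / a * ((√(2 * Real.pi))⁻¹ * Real.exp (-(a ^ 2 / 2))) +
        Real.exp (-(a ^ 2 / 2 + κ / (2 * (a * D) ^ 2) * κ / 4)) := by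
  set θ := κ / (2 * (a * D) ^ 2) with hθd
  have ha0 : 0 < a := by linarith
  have hθ0 : 0 < θ := by positivity
  set w := u + θ • (u - v) with hw
  refine (measureReal_mono (show {g | a ≤ ⟪u, g⟫ ∧ ¬ a ≤ ⟪v, g⟫} ⊆
      (fun g => ⟪u, g⟫) ⁻¹' Set.Ico a (a + κ / a) ∪ (fun g => ⟪w, g⟫) ⁻¹' Set.Ici (a + θ * (κ / a)) from ?_)).trans
    ((measureReal_union_le _ _).trans (add_le_add ?_ ?_))
  · rintro g ⟨h1, h2⟩
    rcases lt_or_ge ⟪u, g⟫ (a + κ / a) with h | h
    · exact Or.inl ⟨h1, h⟩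
    · right
      simp only [Set.mem_preimage, Set.mem_Ici, hw, inner_add_left, real_inner_smul_left, inner_sub_left]
      have := mul_le_mul_of_nonneg_left (show κ / a ≤ ⟪u, g⟫ - ⟪v, g⟫ by linarith) hθ0.le
      linarith
  · rw [law_unit hu measurableSet_Ico]
    exact (interval_le ha0.le (by linarith [show 0 ≤ κ / a by positivity])).trans (le_of_eq (by ring))
  · set s := θ * κ / a ^ 2 with hsd
    have hs0 : 0 < s := by positivity
    have hnw : ‖w‖ ^ 2 ≤ 1 + s := by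
      have e1 : ⟪u, u - v⟫ = ‖u - v‖ ^ 2 / 2 := by
        rw [norm_sub_sq_real, hu, hv, inner_sub_right, real_inner_self_eq_norm_sq, hu]; ring
      rw [hw, norm_add_sq_real, hu, real_inner_smul_right, e1, norm_smul, Real.norm_eq_abs, mul_pow, sq_abs]
      have h1 := mul_le_mul_of_nonneg_left hd (show 0 ≤ θ + θ ^ 2 by positivity)
      have h2 : (θ + θ ^ 2) * D ^ 2 ≤ 2 * θ ^ 2 * D ^ 2 :=
        mul_le_mul_of_nonneg_right (by nlinarith) (sq_nonneg D)
      have h3 : 2 * θ ^ 2 * D ^ 2 = s := by rw [hsd, hθd]; field_simp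
      linarith
    refine (tail_any w (by positivity) (by linarith : 0 < 1 + s) hnw).trans (Real.exp_le_exp.2 ?_)
    rw [neg_le_neg_iff, le_div_iff₀ (by positivity)]
    have e : (a + θ * (κ / a)) ^ 2 = a ^ 2 + 2 * (θ * κ) + (θ * (κ / a)) ^ 2 := by field_simp; ring
    have e2 : a ^ 2 * s = θ * κ := by rw [hsd]; field_simp
    have h1 := mul_le_mul_of_nonneg_left hs (show 0 ≤ θ * κ by positivity)
    nlinarith [sq_nonneg (θ * (κ / a)), show 0 < θ * κ by positivity]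

/-- Far unit vectors: their cap events rarely meet. -/
lemma cap_far {u v : EuclideanSpace ℝ ι} (hu : ‖u‖ = 1) (hv : ‖v‖ = 1) {a G : ℝ} (ha : 0 < a)
    (hG : 0 ≤ G) (hG2 : G < 4) (hd : G ≤ ‖u - v‖ ^ 2) :
    (stdGaussian (EuclideanSpace ℝ ι)).real {g | a ≤ ⟪u, g⟫ ∧ a ≤ ⟪v, g⟫} ≤
      Real.exp (-(a ^ 2 / 2 + a ^ 2 * G / 8)) := by
  refine (measureReal_mono (show {g | a ≤ ⟪u, g⟫ ∧ a ≤ ⟪v, g⟫} ⊆
    (fun g => ⟪u + v, g⟫) ⁻¹' Set.Ici (2 * a) from ?_)).trans ?_
  · rintro g ⟨h1, h2⟩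
    simp only [Set.mem_preimage, Set.mem_Ici, inner_add_left]; linarith
  · have hn : ‖u + v‖ ^ 2 ≤ 4 - G := by
      have := parallelogram_law_with_norm ℝ u v
      rw [hu, hv] at this
      nlinarith
    refine (tail_any _ (by linarith) (by linarith : 0 < 4 - G) hn).trans (Real.exp_le_exp.2 ?_)
    rw [neg_le_neg_iff, le_div_iff₀ (by linarith)]
    nlinarith [mul_nonneg (sq_nonneg a) (mul_nonneg hG hG)]

end space

/-- The Mazur map `t ↦ sgn t · |t| ^ θ`. -/
noncomputable def maz (θ t : ℝ) : ℝ := if 0 ≤ t then t ^ θ else -((-t) ^ θ)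

lemma maz_sq {p : ℝ} (t : ℝ) : maz (p / 2) t ^ 2 = |t| ^ p := by
  have e : ∀ s : ℝ, 0 ≤ s → (s ^ (p / 2)) ^ 2 = s ^ p := fun s hs => by
    rw [← Real.rpow_two, ← Real.rpow_mul hs]; ring_nf
  unfold maz
  split_ifs with h
  · rw [abs_of_nonneg h, e t h]
  · rw [abs_of_neg (not_le.1 h), neg_sq, e _ (by linarith)]

lemma maz_neg {θ : ℝ} (hθ : 0 < θ) (t : ℝ) : maz θ (-t) = -maz θ t := by
  rcases lt_trichotomy t 0 with h | rfl | h
  · simp [maz, not_le.2 h, (neg_nonneg.2 h.le)]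
  · simp [maz, Real.zero_rpow hθ.ne']
  · simp [maz, h.le, not_le.2 (neg_lt_zero.2 h)]

/-- Reduction of a symmetric statement about two numbers to two normal forms. -/
lemma two_cases (P : ℝ → ℝ → Prop) (hsymm : ∀ a b, P a b → P b a) (hneg : ∀ a b, P a b → P (-a) (-b))
    (h1 : ∀ a b, 0 ≤ b → b ≤ a → P a b) (h2 : ∀ a b, 0 ≤ a → b < 0 → -b ≤ a → P a b) (a b : ℝ) :
    P a b := by
  have pos : ∀ a b, |b| ≤ a → P a b := fun a b h => by
    rcases le_or_gt 0 b with hb | hb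
    · exact h1 a b hb (by rwa [abs_of_nonneg hb] at h)
    · exact h2 a b (le_trans (abs_nonneg _) h) hb (by rwa [abs_of_neg hb] at h)
  rcases le_total |b| |a| with h | h
  · rcases le_total 0 a with ha | ha
    · exact pos a b (by rwa [abs_of_nonneg ha] at h)
    · have := hneg _ _ (pos (-a) (-b) (by rwa [abs_neg, ← abs_of_nonpos ha]))
      rwa [neg_neg, neg_neg] at this
  · rcases le_total 0 b with hb | hb
    · exact hsymm _ _ (pos b a (by rwa [abs_of_nonneg hb] at h))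
    · have := hsymm _ _ (hneg _ _ (pos (-b) (-a) (by rwa [abs_neg, ← abs_of_nonpos hb])))
      rwa [neg_neg, neg_neg] at this

lemma maz_holder {θ : ℝ} (hθ : 0 < θ) (hθ1 : θ ≤ 1) (a b : ℝ) :
    |maz θ a - maz θ b| ≤ 2 * |a - b| ^ θ := by
  refine two_cases (fun a b => |maz θ a - maz θ b| ≤ 2 * |a - b| ^ θ) ?_ ?_ ?_ ?_ a b
  · intro a b h; rwa [abs_sub_comm, abs_sub_comm b]
  · intro a b h; rwa [maz_neg hθ, maz_neg hθ, neg_sub_neg, neg_sub_neg, abs_sub_comm, abs_sub_comm b]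
  · intro a b hb hab
    simp only [maz, if_pos hb, if_pos (hb.trans hab)]
    rw [abs_of_nonneg (sub_nonneg.2 (Real.rpow_le_rpow hb hab hθ.le)), abs_of_nonneg (sub_nonneg.2 hab)]
    have h := Real.rpow_add_le_add_rpow (sub_nonneg.2 hab) hb hθ.le hθ1
    rw [sub_add_cancel] at h
    linarith [Real.rpow_nonneg (sub_nonneg.2 hab) θ]
  · intro a b ha hb hab
    simp only [maz, if_pos ha, if_neg (not_le.2 hb), sub_neg_eq_add]
    have h0 : 0 ≤ -b := by linarith
    rw [abs_of_nonneg (add_nonneg (Real.rpow_nonneg ha _) (Real.rpow_nonneg h0 _)),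
      abs_of_nonneg (by linarith : 0 ≤ a - b)]
    linarith [Real.rpow_le_rpow ha (by linarith : a ≤ a - b) hθ.le,
      Real.rpow_le_rpow h0 (by linarith : -b ≤ a - b) hθ.le]

lemma maz_lip {θ : ℝ} (hθ : 1 ≤ θ) (a b : ℝ) :
    |maz θ a - maz θ b| ≤ 2 * θ * (|a - b| * (|a| + |b|) ^ (θ - 1)) := by
  have hθ0 : 0 < θ := by linarith
  refine two_cases (fun a b => |maz θ a - maz θ b| ≤ 2 * θ * (|a - b| * (|a| + |b|) ^ (θ - 1)))
    ?_ ?_ ?_ ?_ a b
  · intro a b h; rwa [abs_sub_comm, abs_sub_comm b, add_comm |b|]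
  · intro a b h
    rwa [maz_neg hθ0, maz_neg hθ0, neg_sub_neg, neg_sub_neg, abs_sub_comm, abs_sub_comm b, abs_neg, abs_neg]
  · intro a b hb hab
    simp only [maz, if_pos hb, if_pos (hb.trans hab)]
    have ha := hb.trans hab
    rw [abs_of_nonneg (sub_nonneg.2 (Real.rpow_le_rpow hb hab hθ0.le)),
      abs_of_nonneg (sub_nonneg.2 hab), abs_of_nonneg ha, abs_of_nonneg hb]
    rcases ha.eq_or_lt with rfl | ha'
    · have : b = 0 := le_antisymm hab hb
      simp [this]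
    · have h := one_add_mul_self_le_rpow_one_add (s := b / a - 1) (by linarith [div_nonneg hb ha]) hθ
      rw [add_sub_cancel, Real.div_rpow hb ha, le_div_iff₀ (by positivity)] at h
      have e : (1 + θ * (b / a - 1)) * a ^ θ = a ^ θ - θ * ((a - b) * a ^ (θ - 1)) := by
        rw [Real.rpow_sub_one ha'.ne']; field_simp; ring
      have h2 : (a - b) * a ^ (θ - 1) ≤ (a - b) * (a + b) ^ (θ - 1) :=
        mul_le_mul_of_nonneg_left (Real.rpow_le_rpow ha (by linarith) (by linarith)) (sub_nonneg.2 hab)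
      have h3 : 0 ≤ θ * ((a - b) * (a + b) ^ (θ - 1)) :=
        mul_nonneg hθ0.le (mul_nonneg (sub_nonneg.2 hab) (Real.rpow_nonneg (by linarith) _))
      linarith [mul_le_mul_of_nonneg_left h2 hθ0.le]
  · intro a b ha hb hab
    simp only [maz, if_pos ha, if_neg (not_le.2 hb), sub_neg_eq_add]
    have h0 : 0 ≤ -b := by linarith
    rw [abs_of_nonneg (add_nonneg (Real.rpow_nonneg ha _) (Real.rpow_nonneg h0 _)),
      abs_of_nonneg (by linarith : 0 ≤ a - b), abs_of_nonneg ha, abs_of_neg hb, ← sub_eq_add_neg a b]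
    have e : (a - b) * (a - b) ^ (θ - 1) = (a - b) ^ θ := by
      rw [Real.rpow_sub_one (by linarith : a - b ≠ 0), mul_div_cancel₀ _ (by linarith : a - b ≠ 0)]
    rw [e]
    have h1 := le_mul_of_one_le_left (Real.rpow_nonneg (by linarith : 0 ≤ a - b) θ) hθ
    linarith [Real.rpow_le_rpow ha (by linarith : a ≤ a - b) hθ0.le,
      Real.rpow_le_rpow h0 (by linarith : -b ≤ a - b) hθ0.le]

lemma maz_lower {θ : ℝ} (hθ : 0 < θ) {t : ℝ} (ht : 0 < t) (ht1 : t ≤ 1/2) (a b : ℝ) :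
    |a - b| ^ (2 * θ) ≤ t ^ (2 * θ) * (|a| + |b|) ^ (2 * θ) +
      (2 ^ (2 * θ) + ((1 - (1 - t) ^ θ) ^ 2)⁻¹) * (maz θ a - maz θ b) ^ 2 := by
  have hk : 0 < 1 - (1 - t) ^ θ := sub_pos.2 (Real.rpow_lt_one (by linarith) (by linarith) hθ)
  have hC : 0 ≤ 2 ^ (2 * θ) + ((1 - (1 - t) ^ θ) ^ 2)⁻¹ := by positivity
  have sq : ∀ s : ℝ, 0 ≤ s → s ^ (2 * θ) = (s ^ θ) ^ 2 := fun s hs => by
    rw [← Real.rpow_two, ← Real.rpow_mul hs, mul_comm]
  refine two_cases (fun a b => |a - b| ^ (2 * θ) ≤ t ^ (2 * θ) * (|a| + |b|) ^ (2 * θ) +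
    (2 ^ (2 * θ) + ((1 - (1 - t) ^ θ) ^ 2)⁻¹) * (maz θ a - maz θ b) ^ 2) ?_ ?_ ?_ ?_ a b
  · intro a b h; rwa [abs_sub_comm, add_comm |b|, ← neg_sub (maz θ a), neg_sq]
  · intro a b h
    rwa [maz_neg hθ, maz_neg hθ, neg_sub_neg, neg_sub_neg, abs_sub_comm, abs_neg, abs_neg,
      ← neg_sub (maz θ a), neg_sq]
  · intro a b hb hab
    have ha := hb.trans hab
    simp only [maz, if_pos hb, if_pos ha]
    rw [abs_of_nonneg ha, abs_of_nonneg hb, abs_of_nonneg (sub_nonneg.2 hab)]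
    by_cases hsm : a - b ≤ t * (a + b)
    · refine le_add_of_le_of_nonneg ?_ (mul_nonneg hC (sq_nonneg _))
      rw [← Real.mul_rpow ht.le (by linarith)]
      exact Real.rpow_le_rpow (sub_nonneg.2 hab) hsm (by linarith)
    · refine le_add_of_nonneg_of_le (by positivity) (le_trans ?_
        (mul_le_mul_of_nonneg_right (le_add_of_nonneg_left (by positivity)) (sq_nonneg _)))
      have hb' : b ≤ (1 - t) * a := by
        have := mul_nonneg ht.le hb; linarith
      have h1 : b ^ θ ≤ (1 - t) ^ θ * a ^ θ := by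
        rw [← Real.mul_rpow (by linarith) ha]; exact Real.rpow_le_rpow hb hb' hθ.le
      have h2 : ((1 - (1 - t) ^ θ) * a ^ θ) ^ 2 ≤ (a ^ θ - b ^ θ) ^ 2 :=
        pow_le_pow_left₀ (mul_nonneg hk.le (Real.rpow_nonneg ha _)) (by linarith) 2
      rw [inv_mul_eq_div, le_div_iff₀ (by positivity)]
      refine le_trans (le_of_le_of_eq ?_ (mul_pow _ _ 2).symm) h2
      rw [mul_comm, ← sq a ha]
      exact mul_le_mul_of_nonneg_left (Real.rpow_le_rpow (sub_nonneg.2 hab) (by linarith) (by linarith))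
        (sq_nonneg _)
  · intro a b ha hb hab
    simp only [maz, if_pos ha, if_neg (not_le.2 hb), sub_neg_eq_add]
    rw [abs_of_nonneg (by linarith : 0 ≤ a - b), abs_of_nonneg ha, abs_of_neg hb]
    refine le_add_of_nonneg_of_le (mul_nonneg (Real.rpow_nonneg ht.le _) (Real.rpow_nonneg (by linarith) _))
      (le_trans ?_ (mul_le_mul_of_nonneg_right (le_add_of_nonneg_right (by positivity)) (sq_nonneg _)))
    refine (Real.rpow_le_rpow (by linarith) (show a - b ≤ 2 * a by linarith) (by linarith)).trans ?_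
    rw [Real.mul_rpow (by norm_num) ha, sq a ha]
    refine mul_le_mul_of_nonneg_left (pow_le_pow_left₀ (Real.rpow_nonneg ha _) ?_ 2) (by positivity)
    linarith [Real.rpow_nonneg (show 0 ≤ -b by linarith) θ]

lemma add_rpow_le {p s t : ℝ} (hp : 0 ≤ p) (hs : 0 ≤ s) (ht : 0 ≤ t) :
    (s + t) ^ p ≤ 2 ^ p * (s ^ p + t ^ p) := by
  refine (Real.rpow_le_rpow (by positivity) (?_ : s + t ≤ 2 * max s t) hp).trans ?_
  · linarith [le_max_left s t, le_max_right s t]
  · rw [Real.mul_rpow (by norm_num) (le_trans hs (le_max_left _ _))]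
    refine mul_le_mul_of_nonneg_left ?_ (by positivity)
    rcases le_total s t with h | h
    · rw [max_eq_right h]; linarith [Real.rpow_nonneg hs p]
    · rw [max_eq_left h]; linarith [Real.rpow_nonneg ht p]

/-- The Mazur map on the unit ball: upper modulus. -/
lemma maz_near {p : ℝ} (hp : 1 < p) {M : ℕ} {L : ℝ} (hL : 1 ≤ L) (a b : Fin M → ℝ)
    (ha : ∑ k, |a k| ^ p ≤ 1) (hb : ∑ k, |b k| ^ p ≤ 1) (h : ∑ k, |a k - b k| ^ p ≤ (1 / L) ^ p) :
    ∑ k, (maz (p/2) (a k) - maz (p/2) (b k)) ^ 2 ≤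
      4 * (1 + p) ^ 2 * (1 + 2 * 2 ^ p) * (1 / L) ^ min 2 p := by
  have hL0 : 0 < L := by linarith
  have h1L : 0 < 1 / L := by positivity
  have hC : 4 ≤ 4 * (1 + p) ^ 2 * (1 + 2 * (2:ℝ) ^ p) := by
    have := one_le_mul_of_one_le_of_one_le (one_le_pow₀ (n := 2) (by linarith : (1:ℝ) ≤ 1 + p))
      (show (1:ℝ) ≤ 1 + 2 * 2 ^ p by linarith [show (0:ℝ) ≤ 2 * 2 ^ p by positivity])
    linarith
  rcases le_total p 2 with hp2 | hp2
  · rw [min_eq_right hp2]
    calc ∑ k, (maz (p/2) (a k) - maz (p/2) (b k)) ^ 2 ≤ ∑ k, 4 * |a k - b k| ^ p := by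
          refine sum_le_sum fun k _ => ?_
          have := pow_le_pow_left₀ (abs_nonneg _) (maz_holder (θ := p/2) (by linarith) (by linarith) (a k) (b k)) 2
          rw [sq_abs, mul_pow, ← Real.rpow_two (|a k - b k| ^ (p/2)), ← Real.rpow_mul (abs_nonneg _)] at this
          norm_num at this
          linarith
      _ ≤ 4 * (1 / L) ^ p := by rw [← mul_sum]; linarith
      _ ≤ _ := mul_le_mul_of_nonneg_right hC (by positivity)
  · rw [min_eq_left hp2]
    have key : ∀ k, (maz (p/2) (a k) - maz (p/2) (b k)) ^ 2 ≤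
        p ^ 2 * ((1 / L) ^ (2 - p) * |a k - b k| ^ p + (1 / L) ^ 2 * (2 ^ p * (|a k| ^ p + |b k| ^ p))) := by
      intro k
      set d := |a k - b k|
      set S := |a k| + |b k|
      have hd : 0 ≤ d := abs_nonneg _
      have hS : 0 ≤ S := by positivity
      have h0 : |maz (p/2) (a k) - maz (p/2) (b k)| ≤ 2 * (p/2) * (d * S ^ (p/2 - 1)) :=
        maz_lip (θ := p/2) (by linarith) (a k) (b k)
      have h1 := pow_le_pow_left₀ (abs_nonneg _) h0 2
      rw [sq_abs, mul_pow (2 * (p/2)), mul_pow d, ← Real.rpow_two (S ^ (p/2 - 1)),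
        ← Real.rpow_mul hS] at h1
      rw [show (p/2 - 1) * 2 = p - 2 by ring, show (2 * (p/2)) ^ 2 = p ^ 2 by ring] at h1
      refine h1.trans (mul_le_mul_of_nonneg_left ?_ (sq_nonneg p))
      rcases le_or_gt ((1 / L) * S) d with hc | hc
      · refine le_add_of_le_of_nonneg ?_ (by positivity)
        have e1 : S ≤ L * d := by
          have := mul_le_mul_of_nonneg_left hc hL0.le
          rwa [← mul_assoc, mul_one_div_cancel hL0.ne', one_mul] at this
        refine (mul_le_mul_of_nonneg_left (Real.rpow_le_rpow hS e1 (by linarith)) (sq_nonneg d)).trans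
          (le_of_eq ?_)
        rw [Real.mul_rpow hL0.le hd, one_div, Real.inv_rpow hL0.le, ← Real.rpow_neg hL0.le, neg_sub,
          mul_left_comm]
        congr 1
        rw [← Real.rpow_two, ← Real.rpow_add' hd (by linarith)]; ring_nf
      · refine le_add_of_nonneg_of_le (by positivity) ?_
        refine (mul_le_mul_of_nonneg_right (pow_le_pow_left₀ hd hc.le 2) (Real.rpow_nonneg hS _)).trans ?_
        rw [mul_pow, mul_assoc, ← Real.rpow_two S, ← Real.rpow_add' hS (by linarith),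
          show (2:ℝ) + (p - 2) = p by ring]
        exact mul_le_mul_of_nonneg_left (add_rpow_le (by linarith) (abs_nonneg _) (abs_nonneg _)) (sq_nonneg _)
    refine (sum_le_sum fun k _ => key k).trans ?_
    rw [← mul_sum, sum_add_distrib, ← mul_sum, ← mul_sum, ← mul_sum, sum_add_distrib]
    have h1 := mul_le_mul_of_nonneg_left h (show 0 ≤ (1 / L) ^ (2 - p) by positivity)
    rw [← Real.rpow_add h1L, sub_add_cancel, Real.rpow_two] at h1
    have h2 := mul_le_mul_of_nonneg_left (show (2:ℝ) ^ p * ((∑ k, |a k| ^ p) + ∑ k, |b k| ^ p) ≤ 2 ^ p * 2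
      from mul_le_mul_of_nonneg_left (by linarith) (by positivity)) (sq_nonneg (1 / L))
    rw [Real.rpow_two]
    calc _ ≤ p ^ 2 * ((1 / L) ^ 2 + (1 / L) ^ 2 * (2 ^ p * 2)) :=
          mul_le_mul_of_nonneg_left (add_le_add h1 h2) (sq_nonneg p)
      _ = p ^ 2 * ((1 + 2 * 2 ^ p) * (1 / L) ^ 2) := by ring
      _ ≤ (4 * (1 + p) ^ 2) * ((1 + 2 * 2 ^ p) * (1 / L) ^ 2) :=
          mul_le_mul_of_nonneg_right (by nlinarith) (by positivity)
      _ = _ := by ring

/-- The Mazur map on the unit ball: separation. -/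
lemma maz_far {p : ℝ} (hp : 1 < p) {γ : ℝ} (hγ : 0 < γ) :
    ∃ G, 0 < G ∧ G ≤ 1 ∧ ∀ (M : ℕ) (a b : Fin M → ℝ), ∑ k, |a k| ^ p ≤ 1 → ∑ k, |b k| ^ p ≤ 1 →
      γ ≤ ∑ k, |a k - b k| ^ p → G ≤ ∑ k, (maz (p/2) (a k) - maz (p/2) (b k)) ^ 2 := by
  set t : ℝ := min (1/2) ((γ / (4 * 2 ^ p)) ^ (1/p)) with ht
  have ht0 : 0 < t := lt_min (by norm_num) (by positivity)
  set C : ℝ := 2 ^ p + ((1 - (1 - t) ^ (p/2)) ^ 2)⁻¹
  have hC : 0 < C := by positivity
  refine ⟨min 1 (γ / (2 * C)), lt_min one_pos (by positivity), min_le_left _ _, fun M a b ha hb h => ?_⟩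
  refine le_trans (min_le_right _ _) ?_
  have key : ∀ k, |a k - b k| ^ p ≤ t ^ p * (2 ^ p * (|a k| ^ p + |b k| ^ p)) +
      C * (maz (p/2) (a k) - maz (p/2) (b k)) ^ 2 := by
    intro k
    have := maz_lower (θ := p/2) (by linarith) ht0 (min_le_left _ _) (a k) (b k)
    rw [show 2 * (p/2) = p by ring] at this
    exact this.trans (add_le_add (mul_le_mul_of_nonneg_left
      (add_rpow_le (by linarith) (abs_nonneg _) (abs_nonneg _)) (by positivity)) le_rfl)
  have h1 := sum_le_sum fun k (_ : k ∈ (univ : Finset (Fin M))) => key k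
  rw [sum_add_distrib, ← mul_sum, ← mul_sum, ← mul_sum, sum_add_distrib] at h1
  have h2 : t ^ p ≤ γ / (4 * 2 ^ p) := by
    refine (Real.rpow_le_rpow ht0.le (min_le_right _ _) (by linarith)).trans (le_of_eq ?_)
    rw [← Real.rpow_mul (by positivity), one_div_mul_cancel (by linarith), Real.rpow_one]
  have h3 : t ^ p * (2 ^ p * ((∑ k, |a k| ^ p) + ∑ k, |b k| ^ p)) ≤ γ / (4 * 2 ^ p) * (2 ^ p * 2) := by
    refine mul_le_mul h2 (mul_le_mul_of_nonneg_left (by linarith) (by positivity)) ?_ (by positivity)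
    exact mul_nonneg (by positivity) (add_nonneg (sum_nonneg fun _ _ => by positivity)
      (sum_nonneg fun _ _ => by positivity))
  have e : γ / (4 * 2 ^ p) * ((2:ℝ) ^ p * 2) = γ / 2 := by field_simp; norm_num
  rw [div_le_iff₀ (by positivity)]
  linarith

/-- Lift of the Mazur image of the unit ball to the unit sphere. -/
noncomputable def lift {M : ℕ} (u : Fin M → ℝ) : EuclideanSpace ℝ (Option (Fin M)) :=
  WithLp.toLp 2 fun o => o.elim (√(1 - (∑ k, u k ^ 2) / 4)) (fun k => u k / 2)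

lemma lift_norm {M : ℕ} (u : Fin M → ℝ) (hu : ∑ k, u k ^ 2 ≤ 1) : ‖lift u‖ = 1 := by
  rw [← pow_left_inj₀ (norm_nonneg _) zero_le_one two_ne_zero, EuclideanSpace.real_norm_sq_eq,
    Fintype.sum_option, one_pow]
  simp only [lift, Option.elim_none, Option.elim_some, div_pow, ← sum_div]
  rw [Real.sq_sqrt (by linarith)]; ring

lemma lift_dist {M : ℕ} (u v : Fin M → ℝ) (hu : ∑ k, u k ^ 2 ≤ 1) (hv : ∑ k, v k ^ 2 ≤ 1) :
    (∑ k, (u k - v k) ^ 2) / 4 ≤ ‖lift u - lift v‖ ^ 2 ∧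
      ‖lift u - lift v‖ ^ 2 ≤ ∑ k, (u k - v k) ^ 2 := by
  set D := ∑ k, (u k - v k) ^ 2
  set A := √(1 - (∑ k, u k ^ 2) / 4) with hA
  set B := √(1 - (∑ k, v k ^ 2) / 4) with hB
  have e : ‖lift u - lift v‖ ^ 2 = (A - B) ^ 2 + D / 4 := by
    rw [EuclideanSpace.real_norm_sq_eq, Fintype.sum_option]
    simp only [lift, WithLp.ofLp_sub, Pi.sub_apply, Option.elim_none, Option.elim_some, ← sub_div,
      div_pow, ← sum_div]
    norm_num
    rfl
  have hA1 : 1/2 ≤ A := Real.le_sqrt_of_sq_le (by linarith)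
  have hB1 : 1/2 ≤ B := Real.le_sqrt_of_sq_le (by linarith)
  have hD : (A - B) ^ 2 ≤ D / 4 := by
    have h1 : (A - B) ^ 2 ≤ (A ^ 2 - B ^ 2) ^ 2 := by
      rw [show A ^ 2 - B ^ 2 = (A - B) * (A + B) by ring, mul_pow]
      exact le_mul_of_one_le_right (sq_nonneg _) (one_le_pow₀ (by linarith))
    have h2 : A ^ 2 - B ^ 2 = (∑ k, (v k - u k) * (v k + u k)) / 4 := by
      rw [hA, hB, Real.sq_sqrt (by linarith), Real.sq_sqrt (by linarith)]
      rw [show (1 - (∑ k, u k ^ 2) / 4) - (1 - (∑ k, v k ^ 2) / 4) =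
        ((∑ k, v k ^ 2) - ∑ k, u k ^ 2) / 4 by ring, ← sum_sub_distrib]
      congr 1; exact sum_congr rfl fun k _ => by ring
    have h3 := sum_mul_sq_le_sq_mul_sq univ (fun k => v k - u k) (fun k => v k + u k)
    have h4 : ∑ k, (v k + u k) ^ 2 ≤ 4 := by
      calc ∑ k, (v k + u k) ^ 2 ≤ ∑ k, 2 * (v k ^ 2 + u k ^ 2) :=
            sum_le_sum fun k _ => by nlinarith [sq_nonneg (v k - u k)]
        _ ≤ 4 := by rw [← mul_sum, sum_add_distrib]; linarith
    have h5 : ∑ k, (v k - u k) ^ 2 = D := sum_congr rfl fun k _ => by ring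
    rw [h5] at h3
    rw [h2, div_pow] at h1
    have h6 := mul_le_mul_of_nonneg_left h4 (show 0 ≤ D from sum_nonneg fun _ _ => sq_nonneg _)
    linarith
  rw [e]
  constructor <;> linarith [sq_nonneg (A - B)]

/-- Cap events: a finite probability model with, for points of the unit ball of `ℓ_p^M`, events whose
symmetric difference is relatively small for `1/L`-close points and whose intersection is relatively
`exp (-4L)`-small for `γ`-separated points. -/
theorem caps {p : ℝ} (hp : 1 < p) {γ : ℝ} (hγ : 0 < γ) :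
    ∀ᶠ L : ℝ in atTop, ∀ (M : ℕ) (ι : Type) [Fintype ι] [DecidableEq ι] (y : ι → Fin M → ℝ),
      (∀ i, ∑ k, |y i k| ^ p ≤ 1) →
      ∃ (Ω : Type) (_ : Fintype Ω) (_ : DecidableEq Ω) (w : Ω → ℝ) (A : ι → Finset Ω),
        (∀ o, 0 ≤ w o) ∧ ∑ o, w o = 1 ∧ (∀ i, 0 < ∑ o ∈ A i, w o) ∧
        (∀ i j, ∑ k, |y i k - y j k| ^ p ≤ (1 / L) ^ p →
          (∑ o ∈ A i \ A j, w o) + (∑ o ∈ A j \ A i, w o) ≤ 1/64 * ∑ o ∈ A i ∪ A j, w o) ∧
        (∀ i j, γ ≤ ∑ k, |y i k - y j k| ^ p →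
          ∑ o ∈ A i ∩ A j, w o ≤ Real.exp (-(4 * L)) * ∑ o ∈ A i, w o) := by
  classical
  obtain ⟨G, hG0, hG1, hfar⟩ := maz_far hp hγ
  set K : ℝ := 4 * (1 + p) ^ 2 * (1 + 2 * 2 ^ p)
  have hK : 0 < K := by positivity
  set q₁ : ℝ := min 2 p / 2 with hq₁
  have hq₁a : 1/2 < q₁ := by rw [hq₁]; rcases le_total 2 p with h | h <;> simp [h] <;> linarith
  have hq₁b : q₁ ≤ 1 := by rw [hq₁]; linarith [min_le_left (2:ℝ) p]
  set q : ℝ := (1/2 + q₁) / 2 with hq
  set r : ℝ := q₁ - q with hr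
  have hr0 : 0 < r := by rw [hr, hq]; linarith
  set c₀ : ℝ := (√(2 * Real.pi))⁻¹ with hc₀
  have hc : 0 < c₀ := by positivity
  set e₃ : ℝ := Real.exp (-(3/2)) with he₃
  set κ : ℝ := e₃ / 256 with hκ
  have hκ0 : 0 < κ := by rw [hκ]; positivity
  -- the asymptotic requirements on `L`
  set c₁ : ℝ := κ / (2 * K) with hc₁
  have hc₁0 : 0 < c₁ := by positivity
  have E1 : ∀ᶠ L : ℝ in atTop, 1 ≤ c₁ * L ^ (2 * r) :=
    ((tendsto_rpow_atTop (by linarith : 0 < 2 * r)).const_mul_atTop hc₁0).eventually (eventually_ge_atTop 1)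
  have E2 : ∀ᶠ L : ℝ in atTop, c₁ * κ * 4 ≤ L ^ (4 * q - 2 * q₁) :=
    (tendsto_rpow_atTop (by linarith : 0 < 4 * q - 2 * q₁)).eventually (eventually_ge_atTop _)
  have E3 : ∀ᶠ L : ℝ in atTop, Real.log (256 / (c₀ * e₃)) + q * Real.log L ≤ c₁ * κ / 4 * L ^ (2 * r) := by
    have h := (isLittleO_log_rpow_atTop (by linarith : 0 < 2 * r)).bound
      (show 0 < c₁ * κ / 8 / (|q| + 1) by positivity)
    have h' : ∀ᶠ L : ℝ in atTop, Real.log (256 / (c₀ * e₃)) ≤ c₁ * κ / 8 * L ^ (2 * r) :=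
      ((tendsto_rpow_atTop (by linarith : 0 < 2 * r)).const_mul_atTop
        (by positivity : 0 < c₁ * κ / 8)).eventually (eventually_ge_atTop _)
    filter_upwards [h, h', eventually_ge_atTop (1:ℝ)] with L h h' hL
    rw [Real.norm_eq_abs, Real.norm_eq_abs, abs_of_nonneg (show 0 ≤ L ^ (2*r) by positivity),
      abs_of_nonneg (Real.log_nonneg hL)] at h
    have h2 := mul_le_mul_of_nonneg_left h (show 0 ≤ |q| + 1 by positivity)
    rw [← mul_assoc, mul_div_cancel₀ _ (by positivity : |q| + 1 ≠ 0)] at h2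
    have h3 : q * Real.log L ≤ (|q| + 1) * Real.log L :=
      mul_le_mul_of_nonneg_right (by linarith [le_abs_self q]) (Real.log_nonneg hL)
    linarith
  have E4 : ∀ᶠ L : ℝ in atTop, 4 * L + Real.log (1 / (c₀ * e₃)) + q * L ≤ G / 32 * L ^ (2 * q) := by
    have h := ((tendsto_rpow_atTop (by linarith : 0 < 2 * q - 1)).const_mul_atTop
      (by positivity : 0 < G / 32)).eventually
      (eventually_ge_atTop (4 + |Real.log (1 / (c₀ * e₃))| + q))
    filter_upwards [h, eventually_ge_atTop (1:ℝ)] with L h hL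
    have h2 := mul_le_mul_of_nonneg_left h (show 0 ≤ L by linarith)
    have e : L * (G / 32 * L ^ (2 * q - 1)) = G / 32 * L ^ (2 * q) := by
      rw [Real.rpow_sub_one (by linarith)]; field_simp
    have h3 : Real.log (1 / (c₀ * e₃)) ≤ L * |Real.log (1 / (c₀ * e₃))| :=
      (le_abs_self _).trans (le_mul_of_one_le_left (abs_nonneg _) hL)
    linarith
  filter_upwards [E1, E2, E3, E4, eventually_ge_atTop (1:ℝ)] with L e1 e2 e3 e4 hL M ι _ _ y hy
  have hL0 : 0 < L := by linarith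
  set a : ℝ := L ^ q with ha
  have ha1 : 1 ≤ a := Real.one_le_rpow hL (by linarith)
  have ha0 : 0 < a := by linarith
  set v : ι → EuclideanSpace ℝ (Option (Fin M)) := fun i => lift fun k => maz (p/2) (y i k)
  have hu1 : ∀ i, ∑ k, maz (p/2) (y i k) ^ 2 ≤ 1 := fun i => by simp only [maz_sq]; exact hy i
  have hv : ∀ i, ‖v i‖ = 1 := fun i => lift_norm _ (hu1 i)
  let μ := stdGaussian (EuclideanSpace ℝ (Option (Fin M)))
  obtain ⟨w, hw, hw1, hmodel⟩ := atoms μ (fun i => (fun g => ⟪v i, g⟫) ⁻¹' Set.Ici a)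
    (fun i => measurableSet_Ici.preimage (by fun_prop))
  have hPr : ∀ (P : Finset ι → Prop) [DecidablePred P], ∑ o ∈ univ.filter P, w o = Pr w P := fun P _ => by
    rw [Pr_def, sum_filter]
  have pA : ∀ i, ∑ o ∈ univ.filter (fun S : Finset ι => i ∈ S), w o = tail a := by
    intro i
    rw [hPr, hmodel _ ((fun g => ⟪v i, g⟫) ⁻¹' Set.Ici a) fun g S h => h i, law_unit (hv i) measurableSet_Ici]
    rfl
  have htail : c₀ * e₃ * Real.exp (-(a ^ 2 / 2)) / a ≤ tail a := tail_ge ha1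
  have htpos : 0 < tail a := lt_of_lt_of_le (by positivity) htail
  have hla : Real.log a = q * Real.log L := Real.log_rpow hL0 q
  refine ⟨Finset ι, inferInstance, inferInstance, w, fun i => univ.filter fun S => i ∈ S, hw, hw1,
    fun i => by rw [pA]; exact htpos, fun i j hij => ?_, fun i j hij => ?_⟩
  · have hD2 : ∀ i j, ∑ k, |y i k - y j k| ^ p ≤ (1 / L) ^ p →
        ∑ o ∈ univ.filter (fun S : Finset ι => i ∈ S) \ univ.filter (fun S => j ∈ S), w o ≤
          tail a / 128 := by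
      intro i j hij
      rw [← filter_and_not, hPr, hmodel _ {g | a ≤ ⟪v i, g⟫ ∧ ¬ a ≤ ⟪v j, g⟫} fun g S h => by
        simp only [h i, h j, Set.mem_preimage, Set.mem_Ici, Set.mem_setOf_eq]]
      set D : ℝ := √K * L ^ (-q₁) with hD
      have hDd : ‖v i - v j‖ ^ 2 ≤ D ^ 2 := by
        refine (lift_dist _ _ (hu1 i) (hu1 j)).2.trans ((maz_near hp hL _ _ (hy i) (hy j) hij).trans (le_of_eq ?_))
        rw [hD, mul_pow, Real.sq_sqrt hK.le, ← Real.rpow_two (L ^ (-q₁)), ← Real.rpow_mul hL0.le, one_div,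
          Real.inv_rpow hL0.le, ← Real.rpow_neg hL0.le]
        congr 2; rw [hq₁]; ring
      have haD : κ / (2 * (a * D) ^ 2) = c₁ * L ^ (2 * r) := by
        rw [hD, mul_pow a, mul_pow (√K), Real.sq_sqrt hK.le, ha, ← Real.rpow_two, ← Real.rpow_two (L ^ (-q₁)),
          ← Real.rpow_mul hL0.le, ← Real.rpow_mul hL0.le, hc₁, mul_left_comm (L ^ (q * 2)) K,
          ← Real.rpow_add hL0, show 2 * r = -(q * 2 + -q₁ * 2) by rw [hr]; ring, Real.rpow_neg hL0.le]
        field_simp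
      have hs : κ / (2 * (a * D) ^ 2) * κ / a ^ 2 ≤ 1/4 := by
        rw [haD, ha, ← Real.rpow_two, ← Real.rpow_mul hL0.le, div_le_iff₀ (by positivity),
          show q * 2 = 2 * r + (4 * q - 2 * q₁) by rw [hr]; ring, Real.rpow_add hL0]
        nlinarith [mul_le_mul_of_nonneg_left e2 (show 0 ≤ L ^ (2 * r) by positivity)]
      refine (cap_near (hv i) (hv j) ha1 hκ0 (by positivity) hDd (haD ▸ e1) hs).trans ?_
      have t1 : κ / a * ((√(2 * Real.pi))⁻¹ * Real.exp (-(a ^ 2 / 2))) ≤ tail a / 256 := by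
        refine le_trans (le_of_eq ?_) (div_le_div_of_nonneg_right htail (by norm_num : (0:ℝ) ≤ 256))
        rw [hκ, ← hc₀]; ring
      have t2 : Real.exp (-(a ^ 2 / 2 + κ / (2 * (a * D) ^ 2) * κ / 4)) ≤ tail a / 256 := by
        refine le_trans ?_ (div_le_div_of_nonneg_right htail (by norm_num : (0:ℝ) ≤ 256))
        rw [show c₀ * e₃ * Real.exp (-(a ^ 2 / 2)) / a / 256 =
            Real.exp (-(a ^ 2 / 2)) * ((256 / (c₀ * e₃)) * a)⁻¹ by field_simp,
          neg_add, Real.exp_add]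
        refine mul_le_mul_of_nonneg_left ?_ (Real.exp_pos _).le
        rw [← Real.exp_log (show 0 < (256 / (c₀ * e₃) * a)⁻¹ by positivity), Real.exp_le_exp, Real.log_inv,
          neg_le_neg_iff, Real.log_mul (by positivity) ha0.ne', hla, haD]
        linarith
      linarith
    have h1 := hD2 i j hij
    have h2 := hD2 j i (by simpa only [abs_sub_comm (y j _)] using hij)
    have h3 : tail a ≤ ∑ o ∈ univ.filter (fun S : Finset ι => i ∈ S) ∪ univ.filter (fun S => j ∈ S), w o := by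
      rw [← pA i]; exact sum_le_sum_of_subset_of_nonneg subset_union_left fun o _ _ => hw o
    linarith
  · rw [← filter_and, hPr, hmodel _ {g | a ≤ ⟪v i, g⟫ ∧ a ≤ ⟪v j, g⟫} fun g S h => by
      simp only [h i, h j, Set.mem_preimage, Set.mem_Ici, Set.mem_setOf_eq], pA]
    refine (cap_far (hv i) (hv j) ha0 (G := G / 4) (by positivity) (by linarith)
      (le_trans ?_ (lift_dist _ _ (hu1 i) (hu1 j)).1)).trans ?_
    · exact div_le_div_of_nonneg_right (hfar M _ _ (hy i) (hy j) hij) (by norm_num)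
    · refine le_trans ?_ (mul_le_mul_of_nonneg_left htail (Real.exp_pos _).le)
      rw [show Real.exp (-(4 * L)) * (c₀ * e₃ * Real.exp (-(a ^ 2 / 2)) / a) =
          Real.exp (-(a ^ 2 / 2)) * (Real.exp (-(4 * L)) * ((1 / (c₀ * e₃)) * a)⁻¹) by field_simp,
        neg_add, Real.exp_add]
      refine mul_le_mul_of_nonneg_left ?_ (Real.exp_pos _).le
      rw [← Real.exp_log (show 0 < (1 / (c₀ * e₃) * a)⁻¹ by positivity), ← Real.exp_add, Real.exp_le_exp,
        Real.log_inv, Real.log_mul (by positivity) ha0.ne', hla, ha, ← Real.rpow_two, ← Real.rpow_mul hL0.le,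
        mul_comm q 2]
      have hlog : q * Real.log L ≤ q * L :=
        mul_le_mul_of_nonneg_left (Real.log_le_self hL0.le) (by linarith)
      linarith

end Vale.Agent.P249x
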