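import Vale.Agent.P249x.Basic
import Vale.Agent.P249x.Caps

namespace Vale.Agent.P249x

open Finset MeasureTheory Filter

variable {p : ℝ} {n M : ℕ}

/-- Partition function of the exponential mechanism at scale `r`. -/
noncomputable def Zs (p : ℝ) (x : Fin n → Fin M → ℝ) (i : Fin n) (r : ℝ) : ℝ :=
  ∑ z, Real.exp (-(N p (x i) (x z)) / (64 * r))

section Zs
variable (x : Fin n → Fin M → ℝ) (i : Fin n) {r : ℝ}

lemma one_le_Zs (hp : 0 < p) : 1 ≤ Zs p x i r := by
  have h := single_le_sum (f := fun z => Real.exp (-(N p (x i) (x z)) / (64 * r)))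
    (fun z _ => (Real.exp_pos _).le) (mem_univ i)
  simpa [N_self _ hp, Zs] using h

lemma Zs_le (hr : 0 < r) : Zs p x i r ≤ n := by
  refine (sum_le_sum fun z _ => Real.exp_le_one_iff.2 ?_).trans (by simp)
  exact div_nonpos_of_nonpos_of_nonneg (by simp [N_nonneg]) (by positivity)

lemma Zs_mono {r' : ℝ} (hr : 0 < r) (h : r ≤ r') : Zs p x i r ≤ Zs p x i r' := by
  refine sum_le_sum fun z _ => Real.exp_le_exp.2 ?_
  rw [neg_div, neg_div, neg_le_neg_iff]
  exact div_le_div_of_nonneg_left (N_nonneg _ _) (by positivity) (by linarith)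

/-- Jensen: the mean normalised distance is at most the gain in log-partition function. -/
lemma mean_le (hp : 0 < p) (hr : 0 < r) :
    ∑ z, Real.exp (-(N p (x i) (x z)) / (64 * r)) / Zs p x i r * (N p (x i) (x z) / r) ≤
      128 * (Real.log (Zs p x i (2 * r)) - Real.log (Zs p x i r)) := by
  have hZ : 0 < Zs p x i r := lt_of_lt_of_le one_pos (one_le_Zs x i hp)
  have hZ2 : 0 < Zs p x i (2 * r) := lt_of_lt_of_le one_pos (one_le_Zs x i hp)
  set v : Fin n → ℝ := fun z => Real.exp (-(N p (x i) (x z)) / (64 * r)) / Zs p x i r with hv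
  set a : Fin n → ℝ := fun z => N p (x i) (x z) / (128 * r) with ha
  have hv1 : ∑ z, v z = 1 := by
    simp only [hv, ← sum_div]; exact div_self hZ.ne'
  have hv0 : ∀ z ∈ (univ : Finset (Fin n)), 0 ≤ v z := fun z _ => by positivity
  have h := convexOn_exp.map_sum_le (p := a) hv0 hv1 (fun z _ => Set.mem_univ _)
  simp only [smul_eq_mul] at h
  have e : ∑ z, v z * Real.exp (a z) = Zs p x i (2 * r) / Zs p x i r := by
    simp only [Zs, hv, sum_div]
    refine sum_congr rfl fun z _ => ?_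
    rw [div_mul_eq_mul_div, ← Real.exp_add]
    congr 2
    simp only [ha]; field_simp; ring
  rw [e, ← Real.le_log_iff_exp_le (by positivity), Real.log_div hZ2.ne' hZ.ne'] at h
  refine le_trans (le_of_eq ?_) (mul_le_mul_of_nonneg_left h (by norm_num : (0:ℝ) ≤ 128))
  rw [mul_sum]
  refine sum_congr rfl fun z _ => ?_
  simp only [hv, ha]; field_simp

end Zs

/-- Finite model of one trial of the exponential mechanism. -/
theorem exp_model (hp : 1 ≤ p) (hn : 0 < n) (x : Fin n → Fin M → ℝ) {r : ℝ} (hr : 0 < r) :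
    ∃ (w : Fin n × Finset (Fin n) → ℝ) (A : Fin n → Finset (Fin n × Finset (Fin n))),
      (∀ o, 0 ≤ w o) ∧ ∑ o, w o = 1 ∧
      (∀ i, ∑ o ∈ A i, w o = Zs p x i r / n) ∧
      (∀ i z, ∑ o ∈ (A i).filter (fun o => o.1 = z), w o =
        Real.exp (-(N p (x i) (x z)) / (64 * r)) / n) ∧
      (∀ i j, N p (x i) (x j) ≤ r →
        (∑ o ∈ A i \ A j, w o) + (∑ o ∈ A j \ A i, w o) ≤ 1/64 * ∑ o ∈ A i ∪ A j, w o) := by
  classical
  let e : Fin n → Fin n → ℝ := fun i z => Real.exp (-(N p (x i) (x z)) / (64 * r))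
  have e0 : ∀ i z, 0 ≤ e i z := fun i z => (Real.exp_pos _).le
  have e1 : ∀ i z, e i z ≤ 1 := fun i z => Real.exp_le_one_iff.2
    (div_nonpos_of_nonpos_of_nonneg (by simp [N_nonneg]) (by positivity))
  let μ : Measure ℝ := volume.restrict (Set.Ioc 0 1)
  have : IsProbabilityMeasure μ := ⟨by simp [μ]⟩
  have hμ : ∀ a b : ℝ, 0 ≤ a → b ≤ 1 → a ≤ b → μ.real (Set.Ioc a b) = b - a := by
    intro a b ha hb hab
    simp only [μ, measureReal_restrict_apply measurableSet_Ioc, Set.Ioc_inter_Ioc]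
    rw [sup_of_le_left ha, inf_of_le_left hb, Real.volume_real_Ioc_of_le hab]
  choose v hv0 hv1 hv using fun z => atoms μ (fun i => Set.Iic (e i z)) (fun i => measurableSet_Iic)
  have hnull : ∀ b : ℝ, 0 ≤ b → b ≤ 1 → μ.real (Set.Iic b) = b := by
    intro b hb0 hb1
    simp only [μ, measureReal_restrict_apply measurableSet_Iic]
    rw [Set.inter_comm, Set.Ioc_inter_Iic, inf_of_le_right hb1, Real.volume_real_Ioc_of_le hb0, sub_zero]
  have pin : ∀ i z, Pr (v z) (fun S => i ∈ S) = e i z := by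
    intro i z
    rw [hv z _ (Set.Iic (e i z)) fun g S h => h i, hnull _ (e0 i z) (e1 i z)]
  have por : ∀ i j z, Pr (v z) (fun S => i ∈ S ∨ j ∈ S) = max (e i z) (e j z) := by
    intro i j z
    rw [hv z _ (Set.Iic (max (e i z) (e j z))) fun g S h => by simp [h i, h j, le_max_iff],
      hnull _ (le_max_of_le_left (e0 i z)) (max_le (e1 i z) (e1 j z))]
  have pdiff : ∀ i j z, Pr (v z) (fun S => i ∈ S ∧ j ∉ S) = max (e i z - e j z) 0 := by
    intro i j z
    rw [hv z _ (Set.Ioc (e j z) (e i z)) fun g S h => by simp [h i, h j, and_comm]]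
    rcases le_total (e j z) (e i z) with hle | hle
    · rw [hμ _ _ (e0 j z) (e1 i z) hle, max_eq_left (by linarith)]
    · rw [Set.Ioc_eq_empty (not_lt.2 hle), measureReal_empty, max_eq_right (by linarith)]
  refine ⟨fun o => v o.1 o.2 / n, fun i => univ.filter fun o => i ∈ o.2,
    fun o => div_nonneg (hv0 _ _) (Nat.cast_nonneg n), ?_, ?_, ?_, ?_⟩
  · rw [Fintype.sum_prod_type]
    simp [← sum_div, hv1, hn.ne']
  · intro i
    rw [sum_filter, Fintype.sum_prod_type, Zs, sum_div]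
    refine sum_congr rfl fun z _ => ?_
    simp only [← sum_filter, ← sum_div]
    congr 1
    rw [sum_filter, ← Pr_def]; exact pin i z
  · intro i z
    rw [filter_filter, sum_filter, Fintype.sum_prod_type,
      sum_eq_single z (fun b _ hb => by simp [hb]) (by simp)]
    simp only [and_true, ← sum_filter, ← sum_div]
    congr 1
    rw [sum_filter, ← Pr_def]; exact pin i z
  · intro i j hij
    have hs : ∀ (P : Finset (Fin n) → Prop) [DecidablePred P],
        ∑ o ∈ univ.filter (fun o : Fin n × Finset (Fin n) => P o.2), v o.1 o.2 / n =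
          (∑ z, Pr (v z) P) / n := by
      intro P _
      rw [sum_filter, Fintype.sum_prod_type, sum_div]
      refine sum_congr rfl fun z _ => ?_
      rw [Pr_def, ← sum_filter, ← sum_filter, sum_div]
    rw [← filter_or, ← filter_and_not, ← filter_and_not, hs (fun S => i ∈ S ∧ j ∉ S),
      hs (fun S => j ∈ S ∧ i ∉ S), hs (fun S => i ∈ S ∨ j ∈ S)]
    simp only [por, pdiff, ← add_div, ← sum_add_distrib, ← mul_div_assoc, mul_sum]
    refine div_le_div_of_nonneg_right (sum_le_sum fun z _ => ?_) (Nat.cast_nonneg n)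
    have key : ∀ a b : Fin n, N p (x a) (x b) ≤ r → e a z - e b z ≤ 1/64 * e a z := by
      intro a b hab
      have h2 : e a z * (1 - 1/64) ≤ e b z := by
        calc e a z * (1 - 1/64) ≤ e a z * Real.exp (-(N p (x a) (x b)) / (64 * r)) := by
              refine mul_le_mul_of_nonneg_left ?_ (e0 a z)
              refine le_trans ?_ (Real.add_one_le_exp _)
              have : N p (x a) (x b) / (64 * r) ≤ 1/64 := by
                rw [div_le_iff₀ (by positivity)]; linarith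
              rw [neg_div]; linarith
          _ ≤ e b z := by
              simp only [e, ← Real.exp_add, Real.exp_le_exp, ← add_div]
              refine div_le_div_of_nonneg_right ?_ (by positivity)
              linarith [N_triangle (x b) (x a) (x z) hp, N_comm (p := p) (x a) (x b)]
      linarith
    have h1 := key i j hij
    have h2 := key j i (by rwa [N_comm])
    rcases le_total (e i z) (e j z) with hle | hle
    · rw [max_eq_right (by linarith : e i z - e j z ≤ 0), max_eq_left (by linarith : 0 ≤ e j z - e i z),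
        max_eq_right hle]; linarith
    · rw [max_eq_left (by linarith : 0 ≤ e i z - e j z), max_eq_right (by linarith : e j z - e i z ≤ 0),
        max_eq_left hle]; linarith

lemma sum_comp_Pr {Ω : Type*} [Fintype Ω] (w : Ω → ℝ) (c : Ω → Fin n) (F : Fin n → ℝ) :
    ∑ o, w o * F (c o) = ∑ z, F z * Pr w (fun o => c o = z) := by
  classical
  simp only [Pr_def, mul_sum, mul_ite, mul_zero]
  rw [sum_comm]
  exact sum_congr rfl fun o _ => by simp [mul_comm]

lemma Pr_prod_le {Ω Ω' : Type*} [Fintype Ω] [Fintype Ω'] {w : Ω → ℝ} {w' : Ω' → ℝ}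
    (hw : ∀ o, 0 ≤ w o) (hw1 : ∑ o, w o = 1) {P : Ω × Ω' → Prop} {b : ℝ}
    (h : ∀ o, Pr w' (fun o' => P (o, o')) ≤ b) :
    Pr (fun o : Ω × Ω' => w o.1 * w' o.2) P ≤ b := by
  rw [Pr_prod]
  calc _ ≤ ∑ o, w o * b := sum_le_sum fun o _ => mul_le_mul_of_nonneg_left (h o) (hw o)
    _ = b := by rw [← sum_mul, hw1, one_mul]

lemma Pr_fst {Ω Ω' : Type*} [Fintype Ω] [Fintype Ω'] {w : Ω → ℝ} {w' : Ω' → ℝ}
    (hw1 : ∑ o, w' o = 1) (P : Ω → Prop) :
    Pr (fun o : Ω × Ω' => w o.1 * w' o.2) (fun o => P o.1) = Pr w P := by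
  classical
  rw [Pr_prod, Pr_def]
  exact sum_congr rfl fun o _ => by by_cases h : P o <;> simp [Pr_def, h, hw1]

/-- At most one threshold separates two numbers at distance `r`. -/
lemma cross_le {t r u u' : ℝ} (ht : 1 ≤ t) (hr : 0 < r) (hd : |u - u'| ≤ r) :
    (univ.filter fun k : Fin 16 =>
      ¬(u ≤ ((k : ℕ) + 1) * t * r ↔ u' ≤ ((k : ℕ) + 1) * t * r)).card ≤ 1 := by
  rw [card_le_one]
  intro a ha b hb
  simp only [mem_filter, mem_univ, true_and] at ha hb
  rw [abs_le] at hd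
  have key : ∀ a b : ℕ, a < b → ¬(u ≤ ((a:ℝ) + 1) * t * r ↔ u' ≤ ((a:ℝ) + 1) * t * r) →
      ¬(u ≤ ((b:ℝ) + 1) * t * r ↔ u' ≤ ((b:ℝ) + 1) * t * r) → False := by
    intro a b hab ha hb
    have hab' : (a:ℝ) + 1 + 1 ≤ (b:ℝ) + 1 := by exact_mod_cast Nat.succ_le_succ hab
    have h1 := mul_le_mul_of_nonneg_right hab' (show 0 ≤ t * r by positivity)
    have h2 := mul_le_mul_of_nonneg_right ht hr.le
    have h3 : ((a:ℝ) + 1) * t * r + r ≤ ((b:ℝ) + 1) * t * r := by nlinarith
    by_cases c1 : u ≤ ((a:ℝ) + 1) * t * r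
    · exact hb ⟨fun _ => by linarith, fun _ => by linarith⟩
    · have c2 : u' ≤ ((a:ℝ) + 1) * t * r := by
        by_contra h; exact ha ⟨fun h' => absurd h' c1, fun h' => absurd h' h⟩
      exact hb ⟨fun _ => by linarith, fun _ => by linarith⟩
  apply Fin.ext
  rcases Nat.lt_trichotomy (a:ℕ) b with h | h | h
  · exact (key _ _ h ha hb).elim
  · exact h
  · exact (key _ _ h hb ha).elim

/-- Pointwise cost of the switch between the exponential centre and the cell centre. -/
lemma cost_le {p t u v : ℝ} (hp : 1 < p) (ht : 0 ≤ t) (hu : 0 ≤ u) (hv : 0 ≤ v)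
    (h : (v = u ∧ u ≤ 16 * t) ∨ (v ≤ t ∧ t ≤ u) ∨ v = 0) :
    v ^ p ≤ (16 * t) ^ (p - 1) * u := by
  have hpow : ∀ a : ℝ, 0 ≤ a → a ^ p = a ^ (p - 1) * a := by
    intro a ha
    conv_rhs => rw [← Real.rpow_one a, ← Real.rpow_mul ha, one_mul]
    rw [← Real.rpow_add' ha (by linarith), sub_add_cancel]
  rcases h with ⟨rfl, h⟩ | ⟨h1, h2⟩ | rfl
  · rw [hpow v hv]
    exact mul_le_mul_of_nonneg_right (Real.rpow_le_rpow hv h (by linarith)) hv
  · rw [hpow v hv]
    exact mul_le_mul (Real.rpow_le_rpow hv (by linarith) (by linarith)) (by linarith) hv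
      (Real.rpow_nonneg (by linarith) _)
  · rw [Real.zero_rpow (by linarith)]; positivity

/-- Random centres at one scale. -/
theorem centres (hp : 1 < p) {ζ : ℝ} (hζ : 0 < ζ) :
    ∃ n₀ : ℕ, ∀ n, n₀ ≤ n → ∀ (M : ℕ) (x : Fin n → Fin M → ℝ) (r : ℝ), 0 < r →
      ∃ (Ω : Type) (_ : Fintype Ω) (w : Ω → ℝ) (c : Ω → Fin n → Fin n),
        (∀ o, 0 ≤ w o) ∧ ∑ o, w o = 1 ∧
        (∀ i j, N p (x i) (x j) ≤ r → Pr w (fun o => c o i ≠ c o j) ≤ 1/4) ∧
        (∀ i, ∑ o, w o * (N p (x i) (x (c o i)) / r) ^ p ≤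
          ζ * Real.log n ^ (p - 1) * (Real.log (Zs p x i (2 * r)) - Real.log (Zs p x i r))) := by
  classical
  have hp0 : 0 < p := by linarith
  set τ : ℝ := (ζ / 128) ^ (1 / (p - 1)) / 16 with hτdef
  have hτ : 0 < τ := by positivity
  have hev := (Real.tendsto_log_atTop.comp tendsto_natCast_atTop_atTop).eventually
    ((caps hp (γ := (τ / 128) ^ p) (by positivity)).and (eventually_ge_atTop (1 / τ + 1)))
  obtain ⟨n₀, hn₀⟩ := eventually_atTop.1 (hev.and (eventually_ge_atTop 64))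
  refine ⟨n₀, fun n hn M x r hr => ?_⟩
  obtain ⟨⟨hcap, hL⟩, h64⟩ := hn₀ n hn
  simp only [Function.comp] at hcap hL
  set L := Real.log n
  have hn0 : 0 < n := by omega
  have hn' : (64:ℝ) ≤ n := by exact_mod_cast h64
  have hL1 : 1 ≤ L := by linarith [show (0:ℝ) < 1 / τ by positivity]
  have ht1 : 1 ≤ τ * L := by
    have := mul_le_mul_of_nonneg_left hL hτ.le
    rw [mul_add, mul_one_div_cancel hτ.ne'] at this; linarith
  set t : ℝ := τ * L with ht
  have hexpL : Real.exp L = n := Real.exp_log (by positivity)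
  obtain ⟨w1, A1, hw1, hw1s, hA1, hA1z, hA1d⟩ := exp_model hp.le hn0 x hr
  have hA1pos : ∀ i, 0 < ∑ o ∈ A1 i, w1 o := fun i => by
    rw [hA1]; exact div_pos (lt_of_lt_of_le one_pos (one_le_Zs x i hp0)) (by positivity)
  let ι := {q : Fin n × Fin n // N p (x q.1) (x q.2) ≤ 128 * L * r}
  let y : ι → Fin M → ℝ := fun q k => (x q.1.2 k - x q.1.1 k) / (128 * L * r)
  have hy1 : ∀ q : ι, ∑ k, |y q k| ^ p ≤ 1 := by
    intro q
    have h := Real.rpow_le_rpow (N_nonneg _ _) q.2 hp0.le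
    rw [N_rpow _ _ hp0] at h
    simp only [y, abs_div, abs_of_pos (by positivity : (0:ℝ) < 128 * L * r), abs_sub_comm (x q.1.2 _)]
    simp_rw [Real.div_rpow (abs_nonneg _) (by positivity : (0:ℝ) ≤ 128 * L * r)]
    rw [← sum_div, div_le_one (by positivity)]
    exact h
  have hydiff : ∀ q q' : ι, q.1.1 = q'.1.1 →
      ∑ k, |y q k - y q' k| ^ p = (N p (x q.1.2) (x q'.1.2) / (128 * L * r)) ^ p := by
    intro q q' he
    rw [Real.div_rpow (N_nonneg _ _) (by positivity), N_rpow _ _ hp0, sum_div]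
    refine sum_congr rfl fun k _ => ?_
    simp only [y, he, ← sub_div, sub_sub_sub_cancel_right, abs_div,
      abs_of_pos (by positivity : (0:ℝ) < 128 * L * r)]
    rw [Real.div_rpow (abs_nonneg _) (by positivity)]
  obtain ⟨Ω2, _, _, w2, A2, hw2, hw2s, hA2pos, hA2near, hA2far⟩ := hcap M ι y hy1
  -- numbers of trials
  obtain ⟨L1, hL1'⟩ := exists_pow_lt_of_lt_one (show (0:ℝ) < 1/64 by norm_num)
    (show 1 - 1 / (n:ℝ) < 1 by linarith [show (0:ℝ) < 1 / (n:ℝ) by positivity])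
  have hev2 : ∀ᶠ l : ℕ in atTop, ∀ q : ι, (1 - ∑ o ∈ A2 q, w2 o) ^ l ≤ 1 / (64 * (n:ℝ) ^ 3) := by
    rw [eventually_all]
    intro q
    refine (tendsto_pow_atTop_nhds_zero_of_lt_one ?_ ?_).eventually_le_const (by positivity)
    · have := sum_le_univ_sum_of_nonneg hw2 (s := A2 q); linarith
    · linarith [hA2pos q]
  obtain ⟨L2, hL2⟩ := hev2.exists
  -- centres
  let cs : (Fin L1 → Fin n × Finset (Fin n)) → Fin n → Fin n := fun ω i =>
    match pick L1 ω (A1 i) with
    | none => i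
    | some z => z.2.1
  let lab : (Fin L2 → Ω2) → Fin n → Fin n → Option (ℕ × Ω2) := fun ω a b =>
    if h : N p (x a) (x b) ≤ 128 * L * r then pick L2 ω (A2 ⟨(a, b), h⟩) else none
  let W1 := wpi w1 L1
  let W2 : (Fin L2 → Ω2) × Fin 16 → ℝ := fun o => wpi w2 L2 o.1 * (1/16)
  let Ω := (Fin L1 → Fin n × Finset (Fin n)) × ((Fin L2 → Ω2) × Fin 16)
  let group : Ω → Fin n → Finset (Fin n) := fun o i => univ.filter fun b =>
    cs o.1 b = cs o.1 i ∧ N p (x (cs o.1 i)) (x b) ≤ 128 * L * r ∧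
      lab o.2.1 (cs o.1 b) b = lab o.2.1 (cs o.1 i) i
  let cell : Ω → Fin n → Fin n := fun o i =>
    if h : i ∈ group o i ∧ ∀ a ∈ group o i, ∀ b ∈ group o i, N p (x a) (x b) ≤ t * r then
      (group o i).min' ⟨i, h.1⟩ else i
  let ctr : Ω → Fin n → Fin n := fun o i =>
    if N p (x (cs o.1 i)) (x i) ≤ ((o.2.2 : ℕ) + 1) * t * r then cs o.1 i else cell o i
  have hW1 : ∀ o, 0 ≤ W1 o := wpi_nonneg hw1 L1
  have hW1s : ∑ o, W1 o = 1 := sum_wpi hw1s L1
  have hP2 : ∀ o, 0 ≤ wpi w2 L2 o := wpi_nonneg hw2 L2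
  have hP2s : ∑ o, wpi w2 L2 o = 1 := sum_wpi hw2s L2
  have hW2 : ∀ o, 0 ≤ W2 o := fun o => mul_nonneg (hP2 _) (by norm_num)
  have hW2s : ∑ o, W2 o = 1 := by
    simp only [W2, Fintype.sum_prod_type, sum_const, card_univ, Fintype.card_fin, nsmul_eq_mul]
    rw [← mul_sum, ← sum_mul, hP2s]; norm_num
  have h16 : ∑ _k : Fin 16, (1/16 : ℝ) = 1 := by simp
  have hwΩ : ∀ o : Ω, 0 ≤ W1 o.1 * W2 o.2 := fun o => mul_nonneg (hW1 _) (hW2 _)
  -- law of `cs`
  have hcs : ∀ i z, z ≠ i → Pr W1 (fun ω => cs ω i = z) ≤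
      Real.exp (-(N p (x i) (x z)) / (64 * r)) / Zs p x i r := by
    intro i z hz
    refine (Pr_mono hW1 (Q := fun ω => ∃ u, pick L1 ω (A1 i) = some u ∧ u.2.1 = z) ?_).trans
      ((pick_snd hw1 hw1s (A1 i) (fun o => o.1 = z) (hA1pos i) L1).trans (le_of_eq ?_))
    · intro ω h
      simp only [cs] at h
      cases hc : pick L1 ω (A1 i) with
      | none => simp only [hc] at h; exact absurd h.symm hz
      | some u => simp only [hc] at h; exact ⟨u, rfl, h⟩
    · rw [hA1z, hA1, div_div_div_cancel_right₀ (by positivity)]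
  refine ⟨Ω, inferInstance, fun o => W1 o.1 * W2 o.2, ctr, hwΩ, ?_, ?_, ?_⟩
  · simp only [Ω, Fintype.sum_prod_type (f := fun o : Ω => W1 o.1 * W2 o.2), ← mul_sum, hW2s,
      mul_one, hW1s]
  · intro i j hij
    let E1 : Ω → Prop := fun o => pick L1 o.1 (A1 i) ≠ pick L1 o.1 (A1 j)
    let E2 : Ω → Prop := fun o => pick L1 o.1 (A1 i) = none
    let E3 : Ω → Prop := fun o => cs o.1 i = cs o.1 j ∧
      ¬(N p (x (cs o.1 i)) (x i) ≤ ((o.2.2 : ℕ) + 1) * t * r ↔
        N p (x (cs o.1 j)) (x j) ≤ ((o.2.2 : ℕ) + 1) * t * r)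
    let E4 : Fin n → Ω → Prop := fun a o => 128 * L * r < N p (x (cs o.1 a)) (x a)
    let E5 : Ω → Prop := fun o => cs o.1 i = cs o.1 j ∧
      N p (x (cs o.1 i)) (x i) ≤ 128 * L * r ∧ N p (x (cs o.1 j)) (x j) ≤ 128 * L * r ∧
      lab o.2.1 (cs o.1 i) i ≠ lab o.2.1 (cs o.1 j) j
    let F : Fin n × Fin n × Fin n → (Fin L2 → Ω2) → Prop := fun q ω =>
      ∃ (h : N p (x q.1) (x q.2.1) ≤ 128 * L * r) (h' : N p (x q.1) (x q.2.2) ≤ 128 * L * r),
        t * r < N p (x q.2.1) (x q.2.2) ∧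
          pick L2 ω (A2 ⟨(q.1, q.2.1), h⟩) = pick L2 ω (A2 ⟨(q.1, q.2.2), h'⟩)
    let E6 : Ω → Prop := fun o => ∃ q ∈ (univ : Finset (Fin n × Fin n × Fin n)), F q o.2.1
    have hsub : ∀ o, ctr o i ≠ ctr o j →
        E1 o ∨ E2 o ∨ E3 o ∨ E4 i o ∨ E4 j o ∨ E5 o ∨ E6 o := by
      intro o hne
      by_contra hcon
      simp only [not_or, E1, E2, E4, not_not, not_lt] at hcon
      obtain ⟨h1, h2, h3, h4i, h4j, h5, h6⟩ := hcon
      have hce : cs o.1 i = cs o.1 j := by
        simp only [cs, ← h1]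
        cases hc : pick L1 o.1 (A1 i) with
        | none => exact absurd hc h2
        | some u => rfl
      have hbr : (N p (x (cs o.1 i)) (x i) ≤ ((o.2.2 : ℕ) + 1) * t * r ↔
          N p (x (cs o.1 j)) (x j) ≤ ((o.2.2 : ℕ) + 1) * t * r) := by
        by_contra h; exact h3 ⟨hce, h⟩
      by_cases hb : N p (x (cs o.1 i)) (x i) ≤ ((o.2.2 : ℕ) + 1) * t * r
      · simp [ctr, if_pos hb, if_pos (hbr.1 hb), hce] at hne
      simp only [ctr, if_neg hb, if_neg (mt hbr.2 hb)] at hne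
      have hlab : lab o.2.1 (cs o.1 i) i = lab o.2.1 (cs o.1 j) j := by
        by_contra h; exact h5 ⟨hce, h4i, h4j, h⟩
      have hg : group o i = group o j := by
        simp only [group, hce] at hlab ⊢
        rw [hlab]
      have hi : i ∈ group o i := by simp [group, h4i]
      have hj : j ∈ group o j := by simp [group, h4j]
      have hd : ∀ a ∈ group o i, ∀ b ∈ group o i, N p (x a) (x b) ≤ t * r := by
        intro a ha b hb'
        by_contra hlt
        simp only [group, mem_filter, mem_univ, true_and] at ha hb'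
        refine h6 ⟨(cs o.1 i, a, b), mem_univ _, ha.2.1, hb'.2.1, not_le.1 hlt, ?_⟩
        have ea := ha.2.2.trans hb'.2.2.symm
        rw [ha.1, hb'.1] at ea
        simpa [lab, ha.2.1, hb'.2.1] using ea
      apply hne
      simp only [cell, dif_pos (And.intro hi hd), dif_pos (show j ∈ group o j ∧ _ from ⟨hj, hg ▸ hd⟩), hg]
    have b1 : Pr (fun o : Ω => W1 o.1 * W2 o.2) E1 ≤ 1/64 := by
      rw [Pr_fst hW2s (fun ω => pick L1 ω (A1 i) ≠ pick L1 ω (A1 j))]
      have hU : 0 < ∑ o ∈ A1 i ∪ A1 j, w1 o :=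
        lt_of_lt_of_le (hA1pos i) (sum_le_sum_of_subset_of_nonneg subset_union_left fun o _ _ => hw1 o)
      refine (pick_ne hw1 hw1s _ _ hU L1).trans ?_
      rw [div_le_iff₀ hU]; exact hA1d i j hij
    have b2 : Pr (fun o : Ω => W1 o.1 * W2 o.2) E2 ≤ 1/64 := by
      rw [Pr_fst hW2s (fun ω => pick L1 ω (A1 i) = none), pick_none _ hw1s, hA1]
      refine le_trans (pow_le_pow_left₀ ?_ ?_ L1) hL1'.le
      · rw [sub_nonneg, div_le_one (by positivity)]; exact Zs_le x i hr
      · gcongr; exact one_le_Zs x i hp0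
    have b3 : Pr (fun o : Ω => W1 o.1 * W2 o.2) E3 ≤ 1/16 := by
      refine Pr_prod_le hW1 hW1s fun ω1 => ?_
      rw [show W2 = fun o : (Fin L2 → Ω2) × Fin 16 =>
        wpi w2 L2 o.1 * (fun _ : Fin 16 => (1/16:ℝ)) o.2 from rfl]
      refine Pr_prod_le (w := wpi w2 L2) (w' := fun _ : Fin 16 => (1/16:ℝ)) hP2 hP2s fun ω2 => ?_
      have hk : ((univ.filter fun k : Fin 16 => E3 (ω1, ω2, k)).card : ℝ) ≤ 1 := by
        norm_cast
        by_cases hc : cs ω1 i = cs ω1 j
        · refine le_trans (card_le_card fun k hk => ?_) (cross_le (u := N p (x (cs ω1 i)) (x i))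
            (u' := N p (x (cs ω1 j)) (x j)) ht1 hr ?_)
          · rw [mem_filter] at hk ⊢; exact ⟨hk.1, hk.2.2⟩
          · rw [hc, N_comm (x (cs ω1 j)) (x i), N_comm (x (cs ω1 j)) (x j)]
            exact (N_lip _ _ _ hp.le).trans hij
        · rw [filter_eq_empty_iff.2 fun k _ h => hc h.1]; simp
      rw [Pr_def, ← sum_filter, sum_const, nsmul_eq_mul]
      linarith
    have b4 : ∀ a, Pr (fun o : Ω => W1 o.1 * W2 o.2) (E4 a) ≤ 1/64 := by
      intro a
      rw [Pr_fst hW2s (fun ω => 128 * L * r < N p (x (cs ω a)) (x a))]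
      refine (Pr_mono hW1 (Q := fun ω => ∃ z ∈ univ.filter (fun z => 128 * L * r < N p (x z) (x a)),
        cs ω a = z) (fun ω h => ⟨cs ω a, by simpa using h, rfl⟩)).trans ((Pr_biUnion hW1 _ _).trans ?_)
      calc _ ≤ ∑ z ∈ univ.filter (fun z => 128 * L * r < N p (x z) (x a)), Real.exp (-(2 * L)) := by
            refine sum_le_sum fun z hz => ?_
            rw [mem_filter] at hz
            have hza : z ≠ a := fun e => by
              rw [e, N_self _ hp0] at hz
              have : (0:ℝ) < 128 * L * r := by positivity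
              linarith [hz.2]
            refine (hcs a z hza).trans ((div_le_self (Real.exp_pos _).le (one_le_Zs x a hp0)).trans
              (Real.exp_le_exp.2 ?_))
            rw [N_comm (x a), div_le_iff₀ (by positivity)]; nlinarith [hz.2]
        _ ≤ n * Real.exp (-(2 * L)) := by
            rw [sum_const, nsmul_eq_mul]
            gcongr; exact (card_filter_le _ _).trans_eq (by simp)
        _ ≤ 1/64 := by
            rw [show -(2 * L) = -L + -L by ring, Real.exp_add, Real.exp_neg, hexpL, ← mul_assoc,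
              mul_inv_cancel₀ (by positivity), one_mul, one_div]
            exact inv_anti₀ (by norm_num) hn'
    have b5 : Pr (fun o : Ω => W1 o.1 * W2 o.2) E5 ≤ 1/64 := by
      refine Pr_prod_le hW1 hW1s fun ω1 => ?_
      by_cases hc : cs ω1 i = cs ω1 j ∧ N p (x (cs ω1 i)) (x i) ≤ 128 * L * r ∧
          N p (x (cs ω1 j)) (x j) ≤ 128 * L * r
      · obtain ⟨hc1, hi, hj⟩ := hc
        set q : ι := ⟨(cs ω1 i, i), hi⟩
        set q' : ι := ⟨(cs ω1 j, j), hj⟩
        refine (Pr_mono hW2 (Q := fun o => pick L2 o.1 (A2 q) ≠ pick L2 o.1 (A2 q')) ?_).trans ?_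
        · intro o h
          simpa [E5, lab, hi, hj, q, q'] using h.2.2.2
        · rw [show W2 = fun o => wpi w2 L2 o.1 * (fun _ : Fin 16 => (1/16:ℝ)) o.2 from rfl,
            Pr_fst h16 (fun ω => pick L2 ω (A2 q) ≠ pick L2 ω (A2 q'))]
          have hU : 0 < ∑ o ∈ A2 q ∪ A2 q', w2 o :=
            lt_of_lt_of_le (hA2pos q) (sum_le_sum_of_subset_of_nonneg subset_union_left fun o _ _ => hw2 o)
          refine (pick_ne hw2 hw2s _ _ hU L2).trans ?_
          rw [div_le_iff₀ hU]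
          refine hA2near q q' ?_
          rw [hydiff q q' hc1]
          refine Real.rpow_le_rpow (div_nonneg (N_nonneg _ _) (by positivity)) ?_ hp0.le
          rw [div_le_iff₀ (by positivity)]
          refine hij.trans ?_
          field_simp; linarith
      · refine le_trans (le_of_eq ?_) (by norm_num : (0:ℝ) ≤ 1/64)
        rw [Pr_def]
        exact sum_eq_zero fun o _ => if_neg fun h => hc ⟨h.1, h.2.1, h.2.2.1⟩
    have b6 : Pr (fun o : Ω => W1 o.1 * W2 o.2) E6 ≤ 1/32 := by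
      refine Pr_prod_le hW1 hW1s fun ω1 => ?_
      rw [show W2 = fun o => wpi w2 L2 o.1 * (fun _ : Fin 16 => (1/16:ℝ)) o.2 from rfl,
        Pr_fst h16 (fun ω => ∃ q ∈ univ, F q ω)]
      refine (Pr_biUnion hP2 univ F).trans ?_
      have hq : ∀ q, Pr (wpi w2 L2) (F q) ≤ Real.exp (-(4 * L)) + 1 / (64 * (n:ℝ) ^ 3) := by
        intro q
        by_cases hc : N p (x q.1) (x q.2.1) ≤ 128 * L * r ∧ N p (x q.1) (x q.2.2) ≤ 128 * L * r ∧
            t * r < N p (x q.2.1) (x q.2.2)
        · obtain ⟨h, h', hfar⟩ := hc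
          set a : ι := ⟨(q.1, q.2.1), h⟩
          set b : ι := ⟨(q.1, q.2.2), h'⟩
          refine (Pr_mono hP2 (Q := fun ω => (pick L2 ω (A2 a) = pick L2 ω (A2 b) ∧
            pick L2 ω (A2 a) ≠ none) ∨ pick L2 ω (A2 a) = none) ?_).trans
            ((Pr_or hP2).trans (add_le_add ?_ ?_))
          · rintro ω ⟨_, _, _, he⟩; tauto
          · refine (pick_eq hw2 hw2s _ _ (hA2pos a) L2).trans ?_
            rw [div_le_iff₀ (hA2pos a)]
            refine hA2far a b ?_
            rw [hydiff a b rfl]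
            refine Real.rpow_le_rpow (by positivity) ?_ hp0.le
            rw [le_div_iff₀ (by positivity)]
            refine le_trans (le_of_eq ?_) hfar.le
            rw [ht]; ring
          · rw [pick_none _ hw2s]; exact hL2 a
        · refine le_trans (le_of_eq ?_) (by positivity : (0:ℝ) ≤ Real.exp (-(4 * L)) + 1 / (64 * (n:ℝ) ^ 3))
          rw [Pr_def]
          exact sum_eq_zero fun o _ => if_neg fun ⟨h, h', hf, _⟩ => hc ⟨h, h', hf⟩
      refine (sum_le_sum fun q _ => hq q).trans ?_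
      rw [sum_const, card_univ, Fintype.card_prod, Fintype.card_prod, Fintype.card_fin, nsmul_eq_mul]
      push_cast
      rw [show -(4 * L) = ((4:ℕ):ℝ) * (-L) by push_cast; ring, Real.exp_nat_mul, Real.exp_neg, hexpL]
      have : (n:ℝ)⁻¹ ≤ 1/64 := by rw [one_div]; exact inv_anti₀ (by norm_num) hn'
      have e : (n:ℝ) * (n * n) * ((n:ℝ)⁻¹ ^ 4 + 1 / (64 * (n:ℝ) ^ 3)) = (n:ℝ)⁻¹ + 1/64 := by field_simp
      linarith
    refine (Pr_mono hwΩ hsub).trans ?_
    have h := Pr_or hwΩ (P := E1) (Q := fun o => E2 o ∨ E3 o ∨ E4 i o ∨ E4 j o ∨ E5 o ∨ E6 o)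
    have h2 := Pr_or hwΩ (P := E2) (Q := fun o => E3 o ∨ E4 i o ∨ E4 j o ∨ E5 o ∨ E6 o)
    have h3 := Pr_or hwΩ (P := E3) (Q := fun o => E4 i o ∨ E4 j o ∨ E5 o ∨ E6 o)
    have h4 := Pr_or hwΩ (P := E4 i) (Q := fun o => E4 j o ∨ E5 o ∨ E6 o)
    have h5 := Pr_or hwΩ (P := E4 j) (Q := fun o => E5 o ∨ E6 o)
    have h6 := Pr_or hwΩ (P := E5) (Q := E6)
    linarith [b4 i, b4 j]
  · intro i
    have hpt : ∀ o : Ω, (N p (x i) (x (ctr o i)) / r) ^ p ≤
        (16 * t) ^ (p - 1) * (N p (x i) (x (cs o.1 i)) / r) := by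
      intro o
      refine cost_le hp (by linarith) (div_nonneg (N_nonneg _ _) hr.le) (div_nonneg (N_nonneg _ _) hr.le) ?_
      have htr : 0 ≤ t * r := by positivity
      simp only [ctr]
      split_ifs with hb
      · refine Or.inl ⟨rfl, ?_⟩
        rw [N_comm, div_le_iff₀ hr]
        refine hb.trans ?_
        have : ((o.2.2 : ℕ) : ℝ) + 1 ≤ 16 := by exact_mod_cast o.2.2.isLt
        have := mul_le_mul_of_nonneg_right this htr
        linarith
      · simp only [cell]
        split_ifs with hc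
        · refine Or.inr (Or.inl ⟨?_, ?_⟩)
          · rw [div_le_iff₀ hr]; exact hc.2 i hc.1 _ ((group o i).min'_mem _)
          · rw [N_comm, le_div_iff₀ hr]
            refine le_trans ?_ (not_le.1 hb).le
            have : (1:ℝ) ≤ ((o.2.2 : ℕ) : ℝ) + 1 := by linarith [(Nat.cast_nonneg _ : (0:ℝ) ≤ ((o.2.2 : ℕ) : ℝ))]
            have := mul_le_mul_of_nonneg_right this htr
            linarith
        · exact Or.inr (Or.inr (by rw [N_self _ hp0, zero_div]))
    calc ∑ o : Ω, W1 o.1 * W2 o.2 * (N p (x i) (x (ctr o i)) / r) ^ p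
        ≤ ∑ o : Ω, W1 o.1 * W2 o.2 * ((16 * t) ^ (p - 1) * (N p (x i) (x (cs o.1 i)) / r)) :=
          sum_le_sum fun o _ => mul_le_mul_of_nonneg_left (hpt o) (hwΩ o)
      _ = (16 * t) ^ (p - 1) * ∑ ω, W1 ω * (N p (x i) (x (cs ω i)) / r) := by
          rw [Fintype.sum_prod_type (f := fun o : Ω => W1 o.1 * W2 o.2 *
            ((16 * t) ^ (p - 1) * (N p (x i) (x (cs o.1 i)) / r))), mul_sum]
          refine sum_congr rfl fun ω _ => ?_
          simp only []
          rw [← sum_mul, ← mul_sum, hW2s]; ring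
      _ ≤ (16 * t) ^ (p - 1) *
            (128 * (Real.log (Zs p x i (2 * r)) - Real.log (Zs p x i r))) := by
          refine mul_le_mul_of_nonneg_left (le_trans ?_ (mean_le x i hp0 hr)) (by positivity)
          rw [sum_comp_Pr W1 (fun ω => cs ω i) fun z => N p (x i) (x z) / r]
          refine sum_le_sum fun z _ => ?_
          by_cases hz : z = i
          · subst hz; simp [N_self _ hp0]
          · rw [mul_comm]
            exact mul_le_mul_of_nonneg_right (hcs i z hz) (div_nonneg (N_nonneg _ _) hr.le)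
      _ = ζ * L ^ (p - 1) * (Real.log (Zs p x i (2 * r)) - Real.log (Zs p x i r)) := by
          rw [ht, ← mul_assoc 16, Real.mul_rpow (by positivity) (by linarith), hτdef,
            mul_div_cancel₀ _ (by norm_num : (16:ℝ) ≠ 0), ← Real.rpow_mul (by positivity),
            one_div_mul_cancel (by linarith), Real.rpow_one]
          ring

end Vale.Agent.P249x
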