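import Mathlib

/-!
# Hashing of sparse vectors into few buckets
-/

namespace Vale.Agent.P249x

open Finset

namespace Hash

variable {M B : ℕ}

/-- The coordinates of `s` other than `k` in the bucket of `k`. -/
def mates (s : Finset (Fin M)) (k : Fin M) (h : Fin M → Fin B) : Finset (Fin M) :=
  (s.erase k).filter fun l => h l = h k

/-- A fixed set of `m` coordinates joins `k` with probability `B ^ (-m)`. -/
lemma card_join (k : Fin M) (A : Finset (Fin M)) (hk : k ∉ A) :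
    #(univ.filter fun h : Fin M → Fin B => ∀ l ∈ A, h l = h k) * B ^ #A = B ^ M := by
  classical
  let e : (univ.filter fun h : Fin M → Fin B => ∀ l ∈ A, h l = h k) × (A → Fin B) ≃
      (Fin M → Fin B) :=
    { toFun := fun x l => if hl : l ∈ A then x.2 ⟨l, hl⟩ else x.1.1 l
      invFun := fun g => ⟨⟨fun l => if l ∈ A then g k else g l, mem_filter.2 ⟨mem_univ _,
        fun l hl => by simp [hl, hk]⟩⟩, fun l => g l⟩
      left_inv := fun ⟨⟨h, hh⟩, a⟩ => by
        refine Prod.ext (Subtype.ext (funext fun l => ?_)) (funext fun l => ?_)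
        · by_cases hl : l ∈ A
          · simp [hl, hk, (mem_filter.1 hh).2 l hl]
          · simp [hl]
        · simp [l.2]
      right_inv := fun g => funext fun l => by
        by_cases hl : l ∈ A <;> simp [hl] }
  simpa [Fintype.card_fun, Fintype.card_subtype] using Fintype.card_congr e

/-- Binomial moments of the number of mates. -/
lemma sum_choose (s : Finset (Fin M)) (k : Fin M) (m : ℕ) :
    (∑ h : Fin M → Fin B, (#(mates s k h)).choose m) * B ^ m ≤ #s ^ m * B ^ M := by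
  classical
  have h1 : ∀ h : Fin M → Fin B, (#(mates s k h)).choose m =
      #(((s.erase k).powersetCard m).filter fun A => ∀ l ∈ A, h l = h k) := by
    intro h
    rw [← card_powersetCard]
    congr 1
    ext A
    simp only [mem_powersetCard, mates, subset_iff, mem_filter]
    exact ⟨fun hA => ⟨⟨fun l hl => (hA.1 hl).1, hA.2⟩, fun l hl => (hA.1 hl).2⟩,
      fun hA => ⟨fun l hl => ⟨hA.1.1 hl, hA.2 l hl⟩, hA.1.2⟩⟩
  rw [sum_congr rfl fun h _ => h1 h]
  simp only [card_filter]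
  rw [sum_comm, sum_mul]
  have h2 : ∀ A ∈ (s.erase k).powersetCard m,
      (∑ h : Fin M → Fin B, if ∀ l ∈ A, h l = h k then 1 else 0) * B ^ m = B ^ M := by
    intro A hA
    obtain ⟨hsub, hcard⟩ := mem_powersetCard.1 hA
    rw [← card_filter, ← hcard]
    exact card_join k A fun hk => (mem_erase.1 (hsub hk)).1 rfl
  rw [sum_congr rfl h2, sum_const, smul_eq_mul, card_powersetCard]
  exact Nat.mul_le_mul_right _ ((Nat.choose_le_pow _ _).trans
    (Nat.pow_le_pow_left (card_erase_le) m))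

/-- The distortion of one bucketing, weighted by the load. -/
lemma bucket_error {p : ℝ} (hp : 1 ≤ p) {N : ℕ} (hN : p - 1 ≤ N) (s : Finset (Fin M))
    (D : Fin M → ℝ) (h : Fin M → Fin B) :
    |(∑ b, |∑ k ∈ s.filter (fun k => h k = b), D k| ^ p) - ∑ k ∈ s, |D k| ^ p| ≤
      ∑ k ∈ s, |D k| ^ p *
        (if #(mates s k h) = 0 then 0 else 2 * ((#(mates s k h) : ℝ) + 1) ^ N) := by
  classical
  rw [← sum_fiberwise s h (fun k => |D k| ^ p), ← sum_fiberwise s h (fun k => |D k| ^ p *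
    (if #(mates s k h) = 0 then 0 else 2 * ((#(mates s k h) : ℝ) + 1) ^ N)), ← sum_sub_distrib]
  refine (abs_sum_le_sum_abs _ _).trans (sum_le_sum fun b _ => ?_)
  set F := s.filter fun k => h k = b
  have hmates : ∀ k ∈ F, #(mates s k h) + 1 = #F := by
    intro k hk
    obtain ⟨hks, hkb⟩ := mem_filter.1 hk
    have e : mates s k h = F.erase k := by
      ext l
      simp only [mates, F, mem_filter, mem_erase, hkb]
      tauto
    rw [e, card_erase_add_one hk]
  rcases le_or_gt #F 1 with hle | hgt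
  · have h0 : |∑ k ∈ F, D k| ^ p = ∑ k ∈ F, |D k| ^ p := by
      rcases Nat.le_one_iff_eq_zero_or_eq_one.1 hle with h | h
      · simp [card_eq_zero.1 h, Real.zero_rpow (show p ≠ 0 by linarith)]
      · obtain ⟨a, ha⟩ := card_eq_one.1 h
        simp [ha]
    rw [h0, sub_self, abs_zero]
    exact sum_nonneg fun k _ => mul_nonneg (by positivity) (by split_ifs <;> positivity)
  · have hcard : (1:ℝ) ≤ #F := by exact_mod_cast hgt.le
    have h1 : |∑ k ∈ F, D k| ^ p ≤ (#F : ℝ) ^ (p - 1) * ∑ k ∈ F, |D k| ^ p :=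
      (Real.rpow_le_rpow (abs_nonneg _) (abs_sum_le_sum_abs _ _) (by linarith)).trans
        (Real.rpow_sum_le_const_mul_sum_rpow F D hp)
    have h2 : (#F : ℝ) ^ (p - 1) ≤ (#F : ℝ) ^ N := by
      rw [← Real.rpow_natCast]
      exact Real.rpow_le_rpow_of_exponent_le hcard hN
    have h3 : 0 ≤ ∑ k ∈ F, |D k| ^ p := sum_nonneg fun k _ => by positivity
    calc |(|∑ k ∈ F, D k| ^ p) - ∑ k ∈ F, |D k| ^ p|
        ≤ |∑ k ∈ F, D k| ^ p + ∑ k ∈ F, |D k| ^ p := by
          rw [abs_le]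
          constructor <;>
            linarith [Real.rpow_nonneg (abs_nonneg (∑ k ∈ F, D k)) p]
      _ ≤ 2 * (#F : ℝ) ^ N * ∑ k ∈ F, |D k| ^ p := by
          have h4 : (1:ℝ) ≤ (#F : ℝ) ^ N := one_le_pow₀ hcard
          linarith [mul_le_mul_of_nonneg_right h2 h3, mul_le_mul_of_nonneg_right h4 h3]
      _ = _ := by
          rw [mul_sum]
          refine sum_congr rfl fun k hk => ?_
          have e := hmates k hk
          rw [if_neg (by omega), show ((#(mates s k h) : ℝ) + 1) = #F by exact_mod_cast e]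
          ring

/-- Splitting the load. -/
lemma load_le {N m : ℕ} (hm : N ≤ m) (T : ℕ) :
    (if T = 0 then 0 else 2 * ((T : ℝ) + 1) ^ N) ≤
      2 * (2 * (m:ℝ) + 1) ^ N * (if T = 0 then 0 else 1) +
        2 * 2 ^ m * m.factorial * (T.choose m : ℝ) := by
  rcases eq_or_ne T 0 with rfl | hT
  · simp only [if_true, mul_zero, zero_add]
    positivity
  rw [if_neg hT, if_neg hT, mul_one]
  rcases lt_or_ge T (2 * m) with h | h
  · refine le_add_of_le_of_nonneg ?_ (by positivity)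
    have : (T:ℝ) + 1 ≤ 2 * (m:ℝ) + 1 := by
      have : (T:ℝ) ≤ 2 * (m:ℝ) := by exact_mod_cast h.le
      linarith
    gcongr
  · refine le_add_of_nonneg_of_le (by positivity) ?_
    have h1 : T + 1 ≤ 2 * (T + 1 - m) := by omega
    have h2 : (((T + 1 - m) ^ m : ℕ) : ℝ) / m.factorial ≤ (T.choose m : ℝ) :=
      by simpa using Nat.pow_le_choose (α := ℝ) m T
    rw [div_le_iff₀ (by positivity)] at h2
    have h3 : ((T:ℝ) + 1) ^ N ≤ (((T + 1 - m) ^ m : ℕ) : ℝ) * 2 ^ m := by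
      calc ((T:ℝ) + 1) ^ N ≤ ((T:ℝ) + 1) ^ m :=
            pow_le_pow_right₀ (by linarith [Nat.cast_nonneg (α := ℝ) T]) hm
        _ ≤ ((2 * (T + 1 - m) : ℕ) : ℝ) ^ m := by
            refine pow_le_pow_left₀ (by positivity) ?_ m
            exact_mod_cast h1
        _ = _ := by push_cast; rw [mul_pow]; ring
    have := mul_le_mul_of_nonneg_right h2 (show (0:ℝ) ≤ 2 ^ m by positivity)
    linarith

/-- The share of the weight with a mate. -/
lemma tail_small {R : ℕ} {q θ : ℝ} (hq : 0 < q) (hq1 : q ≤ 1) {Ω : Type*} [Fintype Ω]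
    (X : Ω → ℝ) (h0 : ∀ o, 0 ≤ X o) (h1 : ∀ o, X o ≤ 1) (hmean : ∑ o, X o ≤ q * Fintype.card Ω) :
    (#(univ.filter fun ω : Fin R → Ω => θ * R < ∑ r, X (ω r)) : ℝ) ≤
      2 ^ R * q ^ (θ * R) * (Fintype.card Ω : ℝ) ^ R := by
  classical
  have hq' : 1 ≤ 1 / q := by rw [le_div_iff₀ hq, one_mul]; exact hq1
  have hb : 0 < 1 / q := by positivity
  have hexp : ∑ o, (1 / q) ^ X o ≤ 2 * Fintype.card Ω := by
    calc ∑ o, (1 / q) ^ X o ≤ ∑ o, (1 + X o * (1 / q - 1)) := sum_le_sum fun o _ => by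
          simpa using rpow_one_add_le_one_add_mul_self
            (show -1 ≤ 1 / q - 1 by linarith) (h0 o) (h1 o)
      _ = Fintype.card Ω + (∑ o, X o) * (1 / q - 1) := by
          rw [sum_add_distrib, sum_mul]; simp
      _ ≤ Fintype.card Ω + q * Fintype.card Ω * (1 / q - 1) := by gcongr
      _ ≤ _ := by
          have : q * (Fintype.card Ω : ℝ) * (1 / q - 1) =
              Fintype.card Ω - q * Fintype.card Ω := by field_simp
          have : 0 ≤ q * (Fintype.card Ω : ℝ) := by positivity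
          linarith
  have h2 : (#(univ.filter fun ω : Fin R → Ω => θ * R < ∑ r, X (ω r)) : ℝ) * (1 / q) ^ (θ * R) ≤
      ∑ ω : Fin R → Ω, (1 / q) ^ (∑ r, X (ω r)) := by
    rw [← nsmul_eq_mul]
    refine (card_nsmul_le_sum _ _ _ fun ω hω => ?_).trans
      (sum_le_sum_of_subset_of_nonneg (filter_subset _ _) fun ω _ _ => by positivity)
    exact Real.rpow_le_rpow_of_exponent_le hq' (mem_filter.1 hω).2.le
  have h3 : ∑ ω : Fin R → Ω, (1 / q) ^ (∑ r, X (ω r)) = (∑ o, (1 / q) ^ X o) ^ R := by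
    rw [Fintype.sum_pow]
    exact sum_congr rfl fun ω _ => Real.rpow_sum_of_pos hb _ _
  rw [h3] at h2
  have h4 := h2.trans (pow_le_pow_left₀ (sum_nonneg fun o _ => by positivity) hexp R)
  rw [← le_div_iff₀ (by positivity), mul_pow, one_div, Real.inv_rpow hq.le, div_inv_eq_mul] at h4
  linarith

/-- Markov for the heavy part. -/
lemma tail_big {R : ℕ} {Q θ : ℝ} (hQ : 0 ≤ Q) (hθ : 0 < θ) {Ω : Type*} [Fintype Ω] (X : Ω → ℝ)
    (h0 : ∀ o, 0 ≤ X o) (hmean : ∑ o, X o ≤ Q * Fintype.card Ω) :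
    (#(univ.filter fun ω : Fin R → Ω => θ * R < ∑ r, X (ω r)) : ℝ) ≤
      Q / θ * (Fintype.card Ω : ℝ) ^ R := by
  classical
  rcases Nat.eq_zero_or_pos R with rfl | hR
  · simpa using div_nonneg hQ hθ.le
  have hR' : (0:ℝ) < R := by exact_mod_cast hR
  have h2 : (#(univ.filter fun ω : Fin R → Ω => θ * R < ∑ r, X (ω r)) : ℝ) * (θ * R) ≤
      ∑ ω : Fin R → Ω, ∑ r, X (ω r) := by
    rw [← nsmul_eq_mul]
    exact (card_nsmul_le_sum _ _ _ fun ω hω => (mem_filter.1 hω).2.le).trans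
      (sum_le_sum_of_subset_of_nonneg (filter_subset _ _) fun ω _ _ => sum_nonneg fun r _ => h0 _)
  have h3 : ∑ ω : Fin R → Ω, ∑ r, X (ω r) =
      R * ((∑ o, X o) * (Fintype.card Ω : ℝ) ^ (R - 1)) := by
    have e : ∀ r, ∑ ω : Fin R → Ω, X (ω r) = (∑ o, X o) * (Fintype.card Ω : ℝ) ^ (R - 1) := by
      intro r
      rw [← (Equiv.piSplitAt r fun _ => Ω).symm.sum_comp, Fintype.sum_prod_type, sum_mul]
      refine sum_congr rfl fun o _ => ?_
      simp [Fintype.card_subtype_compl, mul_comm]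
    rw [sum_comm, sum_congr rfl fun r _ => e r]
    simp
  rw [h3, ← le_div_iff₀ (by positivity)] at h2
  refine h2.trans (le_of_le_of_eq (div_le_div_of_nonneg_right
    (mul_le_mul_of_nonneg_left (mul_le_mul_of_nonneg_right hmean (by positivity)) hR'.le)
    (by positivity)) ?_)
  rw [mul_assoc Q, ← pow_succ', Nat.sub_add_cancel hR]
  field_simp

/-- Means of the two parts of the weighted load. -/
lemma mean_load {s : Finset (Fin M)} (w : Fin M → ℝ) (hw : ∀ k, 0 ≤ w k)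
    (hw1 : ∑ k ∈ s, w k ≤ 1) {q : ℝ} (hq : 0 ≤ q) (hs : (#s : ℝ) ≤ q * B) (hB : 0 < B) (m : ℕ) :
    ∑ h : Fin M → Fin B, ∑ k ∈ s, w k * ((#(mates s k h)).choose m : ℝ) ≤
      q ^ m * Fintype.card (Fin M → Fin B) := by
  rw [sum_comm, Fintype.card_fun, Fintype.card_fin, Fintype.card_fin, Nat.cast_pow]
  have hB' : (0:ℝ) < B := by exact_mod_cast hB
  have h1 : ∀ k, ∑ h : Fin M → Fin B, ((#(mates s k h)).choose m : ℝ) ≤ q ^ m * (B:ℝ) ^ M := by
    intro k
    have h2 : (∑ h : Fin M → Fin B, ((#(mates s k h)).choose m : ℝ)) * (B:ℝ) ^ m ≤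
        (#s : ℝ) ^ m * (B:ℝ) ^ M := by exact_mod_cast sum_choose s k m
    have h3 : (#s : ℝ) ^ m ≤ q ^ m * (B:ℝ) ^ m := by
      rw [← mul_pow]; exact pow_le_pow_left₀ (Nat.cast_nonneg _) hs m
    have h4 := h2.trans (mul_le_mul_of_nonneg_right h3 (by positivity))
    rw [mul_right_comm] at h4
    exact le_of_mul_le_mul_right h4 (by positivity)
  calc _ ≤ ∑ k ∈ s, w k * (q ^ m * (B:ℝ) ^ M) := sum_le_sum fun k _ => by
        rw [← mul_sum]; exact mul_le_mul_of_nonneg_left (h1 k) (hw k)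
    _ ≤ _ := by
        rw [← sum_mul]; exact mul_le_of_le_one_left (by positivity) hw1

end Hash

open Hash in
/-- Hashing of sparse vectors: dimension `U n^η log n`, relative error `δ`. -/
theorem hash_sparse {p : ℝ} (hp : 1 ≤ p) {δ : ℝ} (hδ : 0 < δ) {η : ℝ} (hη : 0 < η) :
    ∃ (C : ℝ) (n₀ : ℕ), ∀ (n : ℕ), n₀ ≤ n → ∀ (M U : ℕ) (e : Fin n → Fin M → ℝ),
      (∀ i, (univ.filter fun k => e i k ≠ 0).card ≤ U) →
      ∃ (d : ℕ) (f : Fin n → Fin d → ℝ), (d : ℝ) ≤ C * ((U + 1) * (n : ℝ) ^ η * Real.log n) ∧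
        ∀ i j, |(∑ k, |f i k - f j k| ^ p) - ∑ k, |e i k - e j k| ^ p| ≤
          δ * ∑ k, |e i k - e j k| ^ p := by
  classical
  have hp0 : 0 < p := by linarith
  set N := ⌈p - 1⌉₊
  set m := max N (max ⌈4 / η⌉₊ 1) with hm_def
  have hNm : N ≤ m := le_max_left _ _
  have hm4 : 4 ≤ η * (m:ℝ) := by
    have h1 : (⌈4 / η⌉₊ : ℝ) ≤ m := by
      exact_mod_cast le_trans (le_max_left _ _) (le_max_right N (max ⌈4 / η⌉₊ 1))
    have h2 := (Nat.le_ceil (4 / η)).trans h1
    rw [div_le_iff₀ hη] at h2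
    linarith
  set G : ℝ := 2 * (2 * (m:ℝ) + 1) ^ N
  set K : ℝ := 2 * 2 ^ m * m.factorial
  have hG : 0 < G := by positivity
  have hK : 0 < K := by positivity
  set θ₁ := δ / (2 * G) with hθ₁_def
  set θ₂ := δ / (2 * K) with hθ₂_def
  have hθ₁ : 0 < θ₁ := by positivity
  have hθ₂ : 0 < θ₂ := by positivity
  set R := ⌈4 / (η * θ₁)⌉₊ + 1 with hR_def
  have hR : 0 < R := Nat.succ_pos _
  have hR' : (0:ℝ) < R := by exact_mod_cast hR
  have hR4 : 4 ≤ η * (θ₁ * R) := by
    have h2 := Nat.le_ceil (4 / (η * θ₁))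
    rw [div_le_iff₀ (by positivity)] at h2
    rw [hR_def]; push_cast
    linarith [show 0 ≤ η * θ₁ by positivity]
  set P : ℝ := 2 ^ R + 1 / θ₂ with hP_def
  have hP : 0 < P := by positivity
  refine ⟨3 * R, max 3 (⌈P⌉₊ + 1), fun n hn M U e hU => ?_⟩
  have hn3 : 3 ≤ n := le_trans (le_max_left _ _) hn
  have hnP : P < n := by
    have h1 : ((⌈P⌉₊ + 1 : ℕ) : ℝ) ≤ n := by exact_mod_cast le_trans (le_max_right _ _) hn
    push_cast at h1
    linarith [Nat.le_ceil P]
  have hn0 : (0:ℝ) < n := by exact_mod_cast (show 0 < n by omega)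
  have hn1 : (1:ℝ) ≤ n := by exact_mod_cast (show 1 ≤ n by omega)
  have hnη : 1 ≤ (n:ℝ) ^ η := Real.one_le_rpow hn1 hη.le
  set B := ⌈2 * ((U:ℝ) + 1) * (n:ℝ) ^ η⌉₊ with hB_def
  have hB : 0 < B := Nat.ceil_pos.2 (by positivity)
  set q := (n:ℝ) ^ (-η) with hq_def
  have hq : 0 < q := Real.rpow_pos_of_pos hn0 _
  have hq1 : q ≤ 1 := Real.rpow_le_one_of_one_le_of_nonpos hn1 (by linarith)
  let s : Fin n × Fin n → Finset (Fin M) := fun x => univ.filter fun k => e x.1 k - e x.2 k ≠ 0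
  let W : Fin n × Fin n → ℝ := fun x => ∑ k ∈ s x, |e x.1 k - e x.2 k| ^ p
  let w : Fin n × Fin n → Fin M → ℝ := fun x k => |e x.1 k - e x.2 k| ^ p / W x
  have hW : ∀ x, 0 ≤ W x := fun x => sum_nonneg fun k _ => by positivity
  have hw : ∀ x k, 0 ≤ w x k := fun x k => div_nonneg (by positivity) (hW x)
  have hw1 : ∀ x, ∑ k ∈ s x, w x k ≤ 1 := fun x => by
    rw [← sum_div]; exact div_self_le_one _
  have hs : ∀ x, (#(s x) : ℝ) ≤ q * B := by
    intro x
    have h1 : #(s x) ≤ 2 * U := by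
      refine (card_le_card (t := (univ.filter fun k => e x.1 k ≠ 0) ∪
        univ.filter fun k => e x.2 k ≠ 0) fun k hk => ?_).trans
          ((card_union_le _ _).trans (by have := hU x.1; have := hU x.2; omega))
      simp only [s, mem_filter, mem_univ, true_and] at hk
      simp only [mem_union, mem_filter, mem_univ, true_and]
      by_contra hc
      push Not at hc
      simp [hc.1, hc.2] at hk
    have h2 : (#(s x) : ℝ) ≤ 2 * U := by exact_mod_cast h1
    have h3 : q * (2 * ((U:ℝ) + 1) * (n:ℝ) ^ η) = 2 * ((U:ℝ) + 1) := by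
      rw [hq_def, mul_comm (2 * ((U:ℝ) + 1)), ← mul_assoc, ← Real.rpow_add hn0, neg_add_cancel,
        Real.rpow_zero, one_mul]
    have h4 := mul_le_mul_of_nonneg_left (Nat.le_ceil (2 * ((U:ℝ) + 1) * (n:ℝ) ^ η)) hq.le
    rw [← hB_def, h3] at h4
    linarith
  let X₁ : Fin n × Fin n → (Fin M → Fin B) → ℝ := fun x h =>
    ∑ k ∈ s x, w x k * (if #(mates (s x) k h) = 0 then 0 else 1)
  let X₂ : Fin n × Fin n → (Fin M → Fin B) → ℝ := fun x h =>
    ∑ k ∈ s x, w x k * ((#(mates (s x) k h)).choose m : ℝ)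
  have hX₁0 : ∀ x h, 0 ≤ X₁ x h := fun x h =>
    sum_nonneg fun k _ => mul_nonneg (hw x k) (by split_ifs <;> norm_num)
  have hX₁1 : ∀ x h, X₁ x h ≤ 1 := fun x h =>
    (sum_le_sum fun k _ => mul_le_of_le_one_right (hw x k) (by split_ifs <;> norm_num)).trans (hw1 x)
  have hX₁m : ∀ x, ∑ h, X₁ x h ≤ q * Fintype.card (Fin M → Fin B) := by
    intro x
    refine le_trans (sum_le_sum fun h _ => sum_le_sum fun k _ => mul_le_mul_of_nonneg_left ?_ (hw x k))
      (by simpa using mean_load (w x) (hw x) (hw1 x) hq.le (hs x) hB 1)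
    rcases Nat.eq_zero_or_pos #(mates (s x) k h) with h0 | h0
    · simp [h0]
    · rw [if_neg h0.ne']; exact_mod_cast h0
  have hX₂0 : ∀ x h, 0 ≤ X₂ x h := fun x h =>
    sum_nonneg fun k _ => mul_nonneg (hw x k) (Nat.cast_nonneg _)
  set c := (Fintype.card (Fin M → Fin B) : ℝ) ^ R with hc_def
  have hne : Nonempty (Fin M → Fin B) := ⟨fun _ => ⟨0, hB⟩⟩
  have hc : 0 < c := pow_pos (by exact_mod_cast Fintype.card_pos) R
  let bad : Fin n × Fin n → Finset (Fin R → (Fin M → Fin B)) := fun x =>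
    (univ.filter fun ω => θ₁ * R < ∑ r, X₁ x (ω r)) ∪ univ.filter fun ω => θ₂ * R < ∑ r, X₂ x (ω r)
  have hbad : ∀ x, (#(bad x) : ℝ) ≤ P * (n:ℝ) ^ (-(4:ℝ)) * c := by
    intro x
    refine (Nat.cast_le.2 (card_union_le _ _)).trans ?_
    rw [Nat.cast_add]
    refine (add_le_add (tail_small hq hq1 (X₁ x) (hX₁0 x) (hX₁1 x) (hX₁m x))
      (tail_big (by positivity) hθ₂ (X₂ x) (hX₂0 x) (mean_load (w x) (hw x) (hw1 x) hq.le (hs x) hB m))).trans ?_
    have e1 : q ^ (θ₁ * R) ≤ (n:ℝ) ^ (-(4:ℝ)) := by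
      rw [hq_def, ← Real.rpow_mul hn0.le]
      exact Real.rpow_le_rpow_of_exponent_le hn1 (by linarith)
    have e2 : q ^ m ≤ (n:ℝ) ^ (-(4:ℝ)) := by
      rw [hq_def, ← Real.rpow_natCast ((n:ℝ) ^ (-η)) m, ← Real.rpow_mul hn0.le]
      exact Real.rpow_le_rpow_of_exponent_le hn1 (by linarith)
    rw [hP_def, hc_def]
    have e3 := mul_le_mul_of_nonneg_right (mul_le_mul_of_nonneg_left e1 (by positivity : (0:ℝ) ≤ 2 ^ R)) hc.le
    have e4 := mul_le_mul_of_nonneg_right (div_le_div_of_nonneg_right e2 hθ₂.le) hc.le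
    rw [hc_def] at e3 e4
    have e5 : (n:ℝ) ^ (-(4:ℝ)) / θ₂ = 1 / θ₂ * (n:ℝ) ^ (-(4:ℝ)) := by ring
    rw [e5] at e4
    linarith
  obtain ⟨ω, hω⟩ : ∃ ω, ω ∉ univ.biUnion bad := by
    refine not_forall.1 fun hall => ?_
    have h1 : (Fintype.card (Fin R → (Fin M → Fin B)) : ℝ) ≤ ∑ x, (#(bad x) : ℝ) := by
      have h2 : univ ⊆ univ.biUnion bad := fun ω _ => hall ω
      exact_mod_cast (card_le_card h2).trans card_biUnion_le
    rw [show (Fintype.card (Fin R → (Fin M → Fin B)) : ℝ) = c by simp [hc_def]] at h1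
    have h3 : c ≤ (n:ℝ) ^ (2:ℝ) * (P * (n:ℝ) ^ (-(4:ℝ)) * c) := by
      refine h1.trans ((sum_le_sum fun x _ => hbad x).trans_eq ?_)
      rw [sum_const, card_univ, Fintype.card_prod, Fintype.card_fin, nsmul_eq_mul, Nat.cast_mul,
        Real.rpow_two, sq]
    have h4 : (n:ℝ) ^ (2:ℝ) * (n:ℝ) ^ (-(4:ℝ)) = ((n:ℝ) * n)⁻¹ := by
      rw [← Real.rpow_add hn0, show (2:ℝ) + -4 = -2 by norm_num, Real.rpow_neg hn0.le,
        Real.rpow_two, sq]
    have h5 : (n:ℝ) ^ (2:ℝ) * (P * (n:ℝ) ^ (-(4:ℝ)) * c) = P / ((n:ℝ) * n) * c := by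
      rw [div_eq_mul_inv, ← h4]; ring
    rw [h5] at h3
    have h6 : P / ((n:ℝ) * n) < 1 := by
      rw [div_lt_one (by positivity)]; nlinarith
    linarith [mul_lt_mul_of_pos_right h6 hc]
  simp only [mem_biUnion, mem_univ, true_and, not_exists, bad, mem_union, mem_filter, not_or,
    not_lt] at hω
  refine ⟨R * B, fun i l => ((R:ℝ) ^ (1/p))⁻¹ * ∑ k ∈ univ.filter
    (fun k => ω (finProdFinEquiv.symm l).1 k = (finProdFinEquiv.symm l).2), e i k, ?_, fun i j => ?_⟩
  · have hBle : (B:ℝ) ≤ 3 * (((U:ℝ) + 1) * (n:ℝ) ^ η) := by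
      have h1 := (Nat.ceil_lt_add_one (show 0 ≤ 2 * ((U:ℝ) + 1) * (n:ℝ) ^ η by positivity)).le
      rw [← hB_def] at h1
      have h2 : 1 ≤ ((U:ℝ) + 1) * (n:ℝ) ^ η :=
        one_le_mul_of_one_le_of_one_le (by linarith [Nat.cast_nonneg (α := ℝ) U]) hnη
      linarith
    have hL : 1 ≤ Real.log n := by
      rw [Real.le_log_iff_exp_le hn0]
      have : (3:ℝ) ≤ n := by exact_mod_cast hn3
      linarith [Real.exp_one_lt_d9]
    push_cast
    calc (R:ℝ) * B ≤ R * (3 * (((U:ℝ) + 1) * (n:ℝ) ^ η)) := by gcongr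
      _ ≤ R * (3 * (((U:ℝ) + 1) * (n:ℝ) ^ η * Real.log n)) := by
          refine mul_le_mul_of_nonneg_left (mul_le_mul_of_nonneg_left ?_ (by norm_num)) hR'.le
          exact le_mul_of_one_le_right (by positivity) hL
      _ = _ := by ring
  · set D : Fin M → ℝ := fun k => e i k - e j k
    have hsum : ∑ k, |D k| ^ p = W (i, j) := by
      refine (sum_subset (subset_univ _) fun k _ hk => ?_).symm
      simp only [s, mem_filter, mem_univ, true_and, not_not] at hk
      simp [D, hk, Real.zero_rpow hp0.ne']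
    rw [hsum, ← finProdFinEquiv.sum_comp, Fintype.sum_prod_type]
    simp only [Equiv.symm_apply_apply, ← mul_sub, ← sum_sub_distrib]
    have hfac : ∀ u : ℝ, |((R:ℝ) ^ (1/p))⁻¹ * u| ^ p = |u| ^ p / R := by
      intro u
      rw [abs_mul, Real.mul_rpow (abs_nonneg _) (abs_nonneg _), abs_inv,
        abs_of_pos (Real.rpow_pos_of_pos hR' _), Real.inv_rpow (by positivity),
        ← Real.rpow_mul hR'.le, one_div_mul_cancel hp0.ne', Real.rpow_one, inv_mul_eq_div]
    have hrestrict : ∀ (r : Fin R) (b : Fin B),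
        ∑ k ∈ univ.filter (fun k => ω r k = b), (e i k - e j k) =
          ∑ k ∈ (s (i, j)).filter (fun k => ω r k = b), D k := by
      intro r b
      refine (sum_subset (fun k hk => ?_) fun k hk hk' => ?_).symm
      · simp only [mem_filter] at hk ⊢; exact ⟨mem_univ _, hk.2⟩
      · simp only [s, mem_filter, mem_univ, true_and, not_and] at hk hk'
        by_contra hne'
        exact hk' hne' hk
    simp only [hfac, hrestrict]
    rw [sum_congr rfl fun r _ => (sum_div univ (fun b => |∑ k ∈ (s (i, j)).filter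
      (fun k => ω r k = b), D k| ^ p) (R:ℝ)).symm, ← sum_div]
    have herr : ∀ r, |(∑ b, |∑ k ∈ (s (i, j)).filter (fun k => ω r k = b), D k| ^ p) - W (i, j)| ≤
        W (i, j) * (G * X₁ (i, j) (ω r) + K * X₂ (i, j) (ω r)) := by
      intro r
      refine (bucket_error hp (Nat.le_ceil (p - 1)) (s (i, j)) D (ω r)).trans ?_
      rw [mul_sum, mul_sum, ← sum_add_distrib, mul_sum]
      refine sum_le_sum fun k hk => ?_
      refine (mul_le_mul_of_nonneg_left (load_le hNm _) (by positivity)).trans (le_of_eq ?_)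
      rcases (hW (i, j)).eq_or_lt with h0 | h0
      · have hz := (sum_eq_zero_iff_of_nonneg fun k _ => by positivity).1 h0.symm k hk
        rw [show |D k| ^ p = 0 from hz, zero_mul]
        simp [← h0]
      · simp only [w, D]
        field_simp
        ring
    have htot : |(∑ r, ∑ b, |∑ k ∈ (s (i, j)).filter (fun k => ω r k = b), D k| ^ p) - R * W (i, j)| ≤
        W (i, j) * (δ * R) := by
      rw [show (R:ℝ) * W (i, j) = ∑ _r : Fin R, W (i, j) by simp, ← sum_sub_distrib]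
      refine (abs_sum_le_sum_abs _ _).trans ((sum_le_sum fun r _ => herr r).trans ?_)
      rw [← mul_sum, sum_add_distrib, ← mul_sum, ← mul_sum]
      refine mul_le_mul_of_nonneg_left ?_ (hW _)
      obtain ⟨hb1, hb2⟩ := hω (i, j)
      have e1 := mul_le_mul_of_nonneg_left hb1 hG.le
      have e2 := mul_le_mul_of_nonneg_left hb2 hK.le
      have : G * (θ₁ * R) + K * (θ₂ * R) = δ * R := by
        rw [hθ₁_def, hθ₂_def]; field_simp; ring
      linarith
    rw [div_sub' hR'.ne', abs_div, abs_of_pos hR', div_le_iff₀ hR', mul_comm δ, mul_assoc]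
    exact htot

end Vale.Agent.P249x
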