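import Vale.Agent.P249x.Centres

namespace Vale.Agent.P249x

open Finset Filter

variable {p : ℝ} {n M : ℕ}

/-- Telescoping over an arbitrary finite set of integers. -/
lemma tele (g : ℤ → ℝ) (hg : Monotone g) (hg0 : ∀ j, 0 ≤ g j) :
    ∀ (J : Finset ℤ) (ub : ℤ), (∀ j ∈ J, j < ub) → ∑ j ∈ J, (g (j + 1) - g j) ≤ g ub := by
  intro J
  induction J using Finset.induction_on_max with
  | empty => intro ub _; simpa using hg0 ub
  | insert a s hlt ih =>
    intro ub hub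
    rw [sum_insert (fun h => lt_irrefl a (hlt a h))]
    have h1 := ih a hlt
    have h2 := hg (Int.add_one_le_iff.2 (hub a (mem_insert_self a s)))
    linarith

lemma geo {q : ℝ} (hq0 : 0 ≤ q) (hq1 : q < 1) (I : Finset ℕ) (i₀ : ℕ) (h : ∀ i ∈ I, i₀ ≤ i) :
    ∑ i ∈ I, q ^ i ≤ q ^ i₀ / (1 - q) := by
  refine le_trans (sum_le_sum_of_subset_of_nonneg (t := Ico i₀ (I.sup id + 1)) ?_ fun i _ _ => by positivity)
    (geom_sum_Ico_le_of_lt_one hq0 hq1)
  intro i hi
  rw [mem_Ico]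
  exact ⟨h i hi, Nat.lt_succ_of_le (le_sup (f := id) hi)⟩

lemma half_rpow (p : ℝ) (i : ℕ) : ((2⁻¹:ℝ) ^ i) ^ p = ((2⁻¹:ℝ) ^ p) ^ i := by
  rw [← Real.rpow_natCast, ← Real.rpow_natCast, ← Real.rpow_mul (by norm_num),
    ← Real.rpow_mul (by norm_num), mul_comm]

lemma half_rpow_lt_one (hp : 0 < p) : (2⁻¹:ℝ) ^ p < 1 :=
  Real.rpow_lt_one (by norm_num) (by norm_num) hp

/-- Covers: off `C i k` coordinate `k` is `4·2^-i`-Lipschitz, and each point is covered cheaply. -/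
theorem covers (hp : 1 < p) {ζ : ℝ} (hζ : 0 < ζ) :
    ∃ n₀ : ℕ, ∀ n, n₀ ≤ n → ∀ (M : ℕ) (x : Fin n → Fin M → ℝ),
      ∃ C : ℕ → Fin M → Finset (Fin n),
        (∀ i k a b, a ∉ C i k → b ∉ C i k → |x a k - x b k| ≤ 4 * 2⁻¹ ^ i * N p (x a) (x b)) ∧
        (∀ a (I : Finset ℕ), ∑ k, ∑ i ∈ I, (if a ∈ C i k then ((2⁻¹:ℝ) ^ i) ^ p else 0) ≤
          ζ * Real.log n ^ p) := by
  classical
  have hp0 : 0 < p := by linarith
  set cp : ℝ := 1 / (1 - (2⁻¹:ℝ) ^ p) with hcp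
  have hcp0 : 0 < cp := by
    have := half_rpow_lt_one hp0
    positivity
  obtain ⟨n₀, hn₀⟩ := centres hp (ζ := ζ / (4 * cp)) (by positivity)
  refine ⟨max n₀ 2, fun n hn M x => ?_⟩
  have hn2 : 2 ≤ n := le_trans (le_max_right _ _) hn
  choose Ω hΩ w c hw hw1 hsame hcost using fun j : ℤ =>
    hn₀ n (le_trans (le_max_left _ _) hn) M x ((2:ℝ) ^ j) (by positivity)
  let J : Finset ℤ := univ.image fun q : Fin n × Fin n => Int.clog 2 (N p (x q.1) (x q.2))
  let St : ℕ → Fin M → ℤ → Fin n → ℝ := fun i k j a =>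
    Pr (w j) (fun o => 2⁻¹ ^ i * (2:ℝ) ^ j < |x a k - x (c j o a) k|)
  refine ⟨fun i k => univ.filter fun a => ∃ j ∈ J, 1/4 < St i k j a, ?_, ?_⟩
  · intro i k a b ha hb
    simp only [mem_filter, mem_univ, true_and, not_exists, not_and, not_lt] at ha hb
    have hN := N_nonneg (p := p) (x a) (x b)
    rcases hN.eq_or_lt with h0 | h0
    · rw [← h0, mul_zero]; rw [h0]; exact abs_le_N _ _ hp0 k
    set j := Int.clog 2 (N p (x a) (x b)) with hj
    have hjJ : j ∈ J := mem_image.2 ⟨(a, b), mem_univ _, rfl⟩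
    have hr1 : N p (x a) (x b) ≤ (2:ℝ) ^ j := by
      exact_mod_cast Int.self_le_zpow_clog (b := 2) one_lt_two (N p (x a) (x b))
    have hr2 : (2:ℝ) ^ j ≤ 2 * N p (x a) (x b) := by
      have h := Int.zpow_pred_clog_lt_self (b := 2) one_lt_two h0
      rw [Nat.cast_ofNat, ← hj, zpow_sub_one₀ (by norm_num)] at h
      linarith
    have hex : ∃ o, c j o a = c j o b ∧ |x a k - x (c j o a) k| ≤ 2⁻¹ ^ i * (2:ℝ) ^ j ∧
        |x b k - x (c j o b) k| ≤ 2⁻¹ ^ i * (2:ℝ) ^ j := by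
      by_contra hcon
      have hall : Pr (w j) (fun _ => True) ≤ Pr (w j) (fun o => c j o a ≠ c j o b) + (St i k j a + St i k j b) := by
        refine (Pr_mono (hw j) (Q := fun o => c j o a ≠ c j o b ∨
          ((2⁻¹ ^ i * (2:ℝ) ^ j < |x a k - x (c j o a) k|) ∨
           (2⁻¹ ^ i * (2:ℝ) ^ j < |x b k - x (c j o b) k|))) fun o _ => ?_).trans
          ((Pr_or (hw j)).trans (add_le_add le_rfl (Pr_or (hw j))))
        by_contra h
        simp only [not_or, not_not, not_lt] at h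
        exact hcon ⟨o, h.1, h.2.1, h.2.2⟩
      have h1 : Pr (w j) (fun _ => True) = 1 := by simp [Pr_def, hw1]
      linarith [hsame j a b hr1, ha j hjJ, hb j hjJ]
    obtain ⟨o, he, h1, h2⟩ := hex
    rw [← he] at h2
    calc |x a k - x b k| ≤ |x a k - x (c j o a) k| + |x b k - x (c j o a) k| := by
          rw [abs_sub_comm (x b k)]; exact abs_sub_le _ _ _
      _ ≤ 2 * (2⁻¹ ^ i * (2:ℝ) ^ j) := by linarith
      _ ≤ 2 * (2⁻¹ ^ i * (2 * N p (x a) (x b))) := by gcongr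
      _ = _ := by ring
  · intro a I
    have hSt : ∀ i k j, 0 ≤ St i k j a := fun i k j => Pr_nonneg (hw j)
    have key : ∀ (s r : ℝ), 0 ≤ s → 0 < r →
        ∑ i ∈ I, (if 2⁻¹ ^ i * r < s then ((2⁻¹:ℝ) ^ i) ^ p else 0) ≤ cp * (s / r) ^ p := by
      intro s r hs hr
      rw [← sum_filter]
      rcases (I.filter fun i => 2⁻¹ ^ i * r < s).eq_empty_or_nonempty with h | h
      · rw [h, sum_empty]; positivity
      · set i₀ := (I.filter fun i => 2⁻¹ ^ i * r < s).min' h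
        have hi₀ := (mem_filter.1 (min'_mem _ h)).2
        simp only [half_rpow]
        refine (geo (by positivity) (half_rpow_lt_one hp0) _ i₀ fun i hi => min'_le _ i hi).trans ?_
        rw [hcp, one_div_mul_eq_div, ← half_rpow]
        refine div_le_div_of_nonneg_right (Real.rpow_le_rpow (by positivity) ?_ hp0.le)
          (by linarith [half_rpow_lt_one hp0])
        rw [le_div_iff₀ hr]; exact hi₀.le
    have hind : ∀ i k, (if a ∈ univ.filter (fun a => ∃ j ∈ J, 1/4 < St i k j a) then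
        ((2⁻¹:ℝ) ^ i) ^ p else 0) ≤ 4 * ∑ j ∈ J, St i k j a * ((2⁻¹:ℝ) ^ i) ^ p := by
      intro i k
      split_ifs with h
      · obtain ⟨j, hj, hlt⟩ := (mem_filter.1 h).2
        have h1 : St i k j a * ((2⁻¹:ℝ) ^ i) ^ p ≤ ∑ j ∈ J, St i k j a * ((2⁻¹:ℝ) ^ i) ^ p :=
          single_le_sum (f := fun j => St i k j a * ((2⁻¹:ℝ) ^ i) ^ p)
            (fun j _ => mul_nonneg (hSt i k j) (by positivity)) hj
        have h2 := mul_le_mul_of_nonneg_right hlt.le (show 0 ≤ ((2⁻¹:ℝ) ^ i) ^ p by positivity)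
        linarith
      · exact mul_nonneg (by norm_num) (sum_nonneg fun j _ => mul_nonneg (hSt i k j) (by positivity))
    refine (sum_le_sum fun k _ => sum_le_sum fun i _ => hind i k).trans ?_
    have hj : ∀ j : ℤ, ∑ k, ∑ i ∈ I, St i k j a * ((2⁻¹:ℝ) ^ i) ^ p ≤
        cp * (ζ / (4 * cp) * Real.log n ^ (p - 1) *
          (Real.log (Zs p x a (2 * 2 ^ j)) - Real.log (Zs p x a (2 ^ j)))) := by
      intro j
      refine le_trans ?_ (mul_le_mul_of_nonneg_left (hcost j a) hcp0.le)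
      simp only [St, Pr_def, sum_mul]
      have e : ∀ k, ∑ i ∈ I, ∑ o, (if 2⁻¹ ^ i * (2:ℝ) ^ j < |x a k - x (c j o a) k| then w j o else 0) *
          ((2⁻¹:ℝ) ^ i) ^ p = ∑ o, w j o * ∑ i ∈ I,
            (if 2⁻¹ ^ i * (2:ℝ) ^ j < |x a k - x (c j o a) k| then ((2⁻¹:ℝ) ^ i) ^ p else 0) := by
        intro k
        rw [sum_comm]
        refine sum_congr rfl fun o _ => ?_
        rw [mul_sum]
        exact sum_congr rfl fun i _ => by split_ifs <;> simp
      simp only [e]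
      rw [sum_comm, mul_sum]
      refine sum_le_sum fun o _ => ?_
      rw [← mul_sum, mul_left_comm cp]
      refine mul_le_mul_of_nonneg_left ?_ (hw j o)
      refine (sum_le_sum fun k _ => key _ _ (abs_nonneg _) (by positivity)).trans (le_of_eq ?_)
      rw [← mul_sum, Real.div_rpow (N_nonneg _ _) (by positivity), N_rpow _ _ hp0, sum_div]
      congr 1
      exact sum_congr rfl fun k _ => Real.div_rpow (abs_nonneg _) (by positivity) _
    have hsw : ∀ k, ∑ i ∈ I, 4 * ∑ j ∈ J, St i k j a * ((2⁻¹:ℝ) ^ i) ^ p =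
        4 * ∑ j ∈ J, ∑ i ∈ I, St i k j a * ((2⁻¹:ℝ) ^ i) ^ p := by
      intro k; rw [← mul_sum, sum_comm]
    rw [sum_congr rfl fun k _ => hsw k, ← mul_sum, sum_comm]
    refine (mul_le_mul_of_nonneg_left (sum_le_sum fun j _ => hj j) (by norm_num)).trans ?_
    rw [← mul_sum, ← mul_sum]
    have hg : ∀ j : ℤ, Real.log (Zs p x a (2 * 2 ^ j)) = Real.log (Zs p x a (2 ^ (j + 1))) := fun j => by
      rw [zpow_add_one₀ (by norm_num), mul_comm]
    simp only [hg]
    have hmono : Monotone fun j : ℤ => Real.log (Zs p x a (2 ^ j)) := fun j j' h =>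
      Real.log_le_log (lt_of_lt_of_le one_pos (one_le_Zs x a hp0))
        (Zs_mono x a (by positivity) (zpow_le_zpow_right₀ (by norm_num) h))
    set ub := J.sup' (Finset.univ_nonempty_iff.2 ⟨(a, a)⟩ |>.image _) id + 1
    have htel := tele _ hmono (fun j => Real.log_nonneg (one_le_Zs x a hp0)) J ub
      fun j hj => Int.lt_add_one_iff.2 (le_sup' id hj)
    have hup : Real.log (Zs p x a (2 ^ ub)) ≤ Real.log n :=
      Real.log_le_log (lt_of_lt_of_le one_pos (one_le_Zs x a hp0)) (Zs_le x a (by positivity))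
    have hL0 : 0 < Real.log n := Real.log_pos (by exact_mod_cast hn2)
    calc 4 * (cp * (ζ / (4 * cp) * Real.log n ^ (p - 1) * ∑ j ∈ J,
          (Real.log (Zs p x a (2 ^ (j + 1))) - Real.log (Zs p x a (2 ^ j)))))
        ≤ 4 * (cp * (ζ / (4 * cp) * Real.log n ^ (p - 1) * Real.log n)) := by
          gcongr; exact htel.trans hup
      _ = ζ * Real.log n ^ p := by
          rw [Real.rpow_sub_one hL0.ne']; field_simp

/-- `|u+v|^p` is `|u|^p` up to `ε|u|^p + C|v|^p`. -/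
lemma perturb (hp : 0 < p) {ε : ℝ} (hε : 0 < ε) :
    ∃ C : ℝ, 0 ≤ C ∧ ∀ u v : ℝ, |(|u + v| ^ p) - |u| ^ p| ≤ ε * |u| ^ p + C * |v| ^ p := by
  have h1 : ContinuousAt (fun t : ℝ => t ^ p) 1 := Real.continuousAt_rpow_const 1 p (Or.inl one_ne_zero)
  obtain ⟨θ, hθ, hθ'⟩ := Metric.continuousAt_iff.1 h1 ε hε
  refine ⟨(2 / θ + 1) ^ p, by positivity, fun u v => ?_⟩
  by_cases hv : |v| ≤ θ / 2 * |u|
  · have hnn : 0 ≤ (2 / θ + 1) ^ p * |v| ^ p := by positivity
    rcases eq_or_ne u 0 with rfl | hu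
    · have : v = 0 := abs_nonpos_iff.1 (by simpa using hv)
      simp [this, Real.zero_rpow hp.ne']
    · have hu' : 0 < |u| := abs_pos.2 hu
      have hd : dist (|u + v| / |u|) 1 < θ := by
        rw [Real.dist_eq, div_sub_one hu'.ne', abs_div, abs_abs, div_lt_iff₀ hu']
        have := abs_abs_sub_abs_le_abs_sub (u + v) u
        rw [add_sub_cancel_left] at this
        nlinarith
      have h := hθ' hd
      rw [Real.dist_eq, Real.one_rpow, Real.div_rpow (abs_nonneg _) hu'.le, div_sub_one (by positivity),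
        abs_div, abs_of_pos (by positivity : (0:ℝ) < |u| ^ p), div_lt_iff₀ (by positivity)] at h
      linarith
  · have hu : |u| ≤ 2 / θ * |v| := by
      rw [not_le] at hv
      rw [div_mul_eq_mul_div, le_div_iff₀ hθ]; linarith
    have h0 : 0 ≤ ε * |u| ^ p := by positivity
    have a1 : |u| ^ p ≤ (2 / θ + 1) ^ p * |v| ^ p := by
      rw [← Real.mul_rpow (by positivity) (abs_nonneg v)]
      exact Real.rpow_le_rpow (abs_nonneg _) (by nlinarith [abs_nonneg v]) hp.le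
    have a2 : |u + v| ^ p ≤ (2 / θ + 1) ^ p * |v| ^ p := by
      rw [← Real.mul_rpow (by positivity) (abs_nonneg v)]
      exact Real.rpow_le_rpow (abs_nonneg _) (by linarith [abs_add_le u v]) hp.le
    rw [abs_le]
    constructor <;> linarith [Real.rpow_nonneg (abs_nonneg (u + v)) p, Real.rpow_nonneg (abs_nonneg u) p]

lemma rpow_add_le (hp : 1 ≤ p) {a b : ℝ} (ha : 0 ≤ a) (hb : 0 ≤ b) :
    (a + b) ^ p ≤ 2 ^ p * (a ^ p + b ^ p) := by
  refine (Real.rpow_le_rpow (by positivity) (?_ : a + b ≤ 2 * max a b) (by linarith)).trans ?_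
  · linarith [le_max_left a b, le_max_right a b]
  · rw [Real.mul_rpow (by norm_num) (le_trans ha (le_max_left _ _))]
    refine mul_le_mul_of_nonneg_left ?_ (by positivity)
    rcases le_total a b with h | h
    · rw [max_eq_right h]; linarith [Real.rpow_nonneg ha p]
    · rw [max_eq_left h]; linarith [Real.rpow_nonneg hb p]

/-- Splitting of one coordinate difference. -/
lemma split_scalar (hp : 1 ≤ p) {ε C : ℝ} (hC0 : 0 ≤ C)
    (hC : ∀ u v : ℝ, |(|u + v| ^ p) - |u| ^ p| ≤ ε * |u| ^ p + C * |v| ^ p) (hε : 0 ≤ ε)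
    {a b e : ℝ} {mid : Prop} [Decidable mid] (he : 0 ≤ e)
    (h : |b| ≤ e ∨ |a - b| ≤ e ∨ (mid ∧ |b| ≤ |a| + e)) :
    |(|b| ^ p + |a - b| ^ p) - |a| ^ p| ≤
      ε * |a| ^ p + (C + 4 * 4 ^ p) * e ^ p + (if mid then 4 * 4 ^ p * |a| ^ p else 0) := by
  have hp0 : 0 ≤ p := by linarith
  have m0 : 0 ≤ (if mid then 4 * (4:ℝ) ^ p * |a| ^ p else 0) := by split_ifs <;> positivity
  have h4 : (1:ℝ) ≤ 4 * 4 ^ p := by
    have := Real.one_le_rpow (by norm_num : (1:ℝ) ≤ 4) hp0; linarith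
  have hep : e ^ p ≤ 4 * 4 ^ p * e ^ p := le_mul_of_one_le_left (by positivity) h4
  have small : ∀ b' : ℝ, |b'| ≤ e → |(|b'| ^ p + |a - b'| ^ p) - |a| ^ p| ≤ ε * |a| ^ p + (C + 4 * 4 ^ p) * e ^ p := by
    intro b' hb
    have h1 := hC a (-b')
    rw [← sub_eq_add_neg, abs_neg] at h1
    have h2 := Real.rpow_le_rpow (abs_nonneg b') hb hp0
    have h3 := mul_le_mul_of_nonneg_left h2 hC0
    have h5 : 0 ≤ |b'| ^ p := by positivity
    rw [abs_le] at h1 ⊢
    constructor <;> linarith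
  rcases h with h | h | ⟨hm, h⟩
  · linarith [small b h]
  · have := small (a - b) h
    rw [sub_sub_cancel, add_comm (|a - b| ^ p)] at this
    linarith
  · rw [if_pos hm]
    have h1 : |b| ^ p ≤ 4 ^ p * |a| ^ p + 4 ^ p * e ^ p := by
      refine (Real.rpow_le_rpow (abs_nonneg _) h hp0).trans
        ((rpow_add_le hp (abs_nonneg _) he).trans ?_)
      rw [mul_add]
      gcongr <;> norm_num
    have h2 : |a - b| ^ p ≤ 4 ^ p * |a| ^ p + 4 ^ p * e ^ p := by
      refine (Real.rpow_le_rpow (abs_nonneg _) (?_ : |a - b| ≤ 2 * |a| + e) hp0).trans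
        ((rpow_add_le hp (by positivity) he).trans ?_)
      · linarith [abs_sub a b]
      · rw [Real.mul_rpow (by norm_num) (abs_nonneg a), mul_add, ← mul_assoc,
          ← Real.mul_rpow (by norm_num : (0:ℝ) ≤ 2) (by norm_num : (0:ℝ) ≤ 2)]
        norm_num
        gcongr <;> norm_num
    have h5 : 0 ≤ ε * |a| ^ p := by positivity
    have h6 : 0 ≤ C * e ^ p := by positivity
    have h7 : 0 ≤ (4:ℝ) ^ p * e ^ p := by positivity
    have h8 : 0 ≤ |b| ^ p + |a - b| ^ p := by positivity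
    have h9 : |a| ^ p ≤ 4 * 4 ^ p * |a| ^ p := le_mul_of_one_le_left (by positivity) h4
    have h10 : 0 ≤ |a| ^ p := by positivity
    have h11 : 0 ≤ (4:ℝ) ^ p * |a| ^ p := by positivity
    rw [abs_le]; constructor <;> linarith

/-- McShane extension from an arbitrary finite set. -/
lemma extend (hp : 1 ≤ p) (x : Fin n → Fin M → ℝ) (U : Finset (Fin n)) (f : Fin n → ℝ) {K : ℝ}
    (hK : 0 ≤ K) (hU : ∀ a ∈ U, ∀ b ∈ U, |f a - f b| ≤ K * N p (x a) (x b)) :
    ∃ g : Fin n → ℝ, (∀ a ∈ U, g a = f a) ∧ ∀ a b, |g a - g b| ≤ K * N p (x a) (x b) := by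
  by_cases hne : U.Nonempty
  · refine ⟨fun a => U.inf' hne fun b => f b + K * N p (x a) (x b), fun a ha => ?_, fun a b => ?_⟩
    · refine le_antisymm ((inf'_le _ ha).trans ?_) (le_inf' _ _ fun b hb => ?_)
      · rw [N_self _ (by linarith), mul_zero, add_zero]
      · linarith [(abs_le.1 (hU a ha b hb)).2]
    · have : ∀ a b, U.inf' hne (fun c => f c + K * N p (x a) (x c)) ≤
          U.inf' hne (fun c => f c + K * N p (x b) (x c)) + K * N p (x a) (x b) := by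
        intro a b
        obtain ⟨c, hc, he⟩ := exists_mem_eq_inf' hne fun c => f c + K * N p (x b) (x c)
        rw [he]
        refine (inf'_le _ hc).trans ?_
        have := mul_le_mul_of_nonneg_left (N_triangle (x a) (x b) (x c) hp) hK
        linarith
      rw [abs_sub_le_iff]
      constructor
      · linarith [this a b]
      · have := this b a
        rw [N_comm (x b) (x a)] at this
        linarith
  · refine ⟨fun _ => 0, fun a ha => absurd ⟨a, ha⟩ hne, fun a b => ?_⟩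
    simpa using mul_nonneg hK (N_nonneg _ _)

/-- Numerical requirements on `n`. -/
lemma numerics (hp : 1 < p) {η ζ : ℝ} (hη : 0 < η) (W : ℕ) (B : ℝ) :
    ∀ᶠ n : ℕ in atTop, B ≤ Real.log n ∧
      (2:ℝ) ^ (p * (4 * W + 8)) * (n:ℝ) ^ (2 * η) * (ζ * Real.log n ^ p) ≤ (n:ℝ) ^ (3 * η) := by
  have h1 := ((isLittleO_log_rpow_rpow_atTop p hη).bound
    (show (0:ℝ) < 1 / ((2:ℝ) ^ (p * (4 * W + 8)) * (|ζ| + 1)) by positivity))
  have h2 : ∀ᶠ n : ℕ in atTop, B ≤ Real.log n :=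
    (Real.tendsto_log_atTop.comp tendsto_natCast_atTop_atTop).eventually (eventually_ge_atTop B)
  filter_upwards [tendsto_natCast_atTop_atTop.eventually h1, h2, eventually_ge_atTop 1] with n hn hB h1n
  refine ⟨hB, ?_⟩
  have hL : 0 ≤ Real.log n := Real.log_natCast_nonneg n
  have hn0 : (0:ℝ) < n := by exact_mod_cast h1n
  rw [Real.norm_eq_abs, Real.norm_eq_abs, abs_of_nonneg (show 0 ≤ Real.log (n:ℝ) ^ p by positivity),
    abs_of_nonneg (show 0 ≤ (n:ℝ) ^ η by positivity), one_div_mul_eq_div, le_div_iff₀ (by positivity)] at hn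
  have hz : ζ * Real.log n ^ p ≤ (|ζ| + 1) * Real.log n ^ p :=
    mul_le_mul_of_nonneg_right (by linarith [le_abs_self ζ]) (by positivity)
  rw [show 3 * η = 2 * η + η by ring, Real.rpow_add hn0, mul_comm _ ((n:ℝ) ^ (2 * η)), mul_assoc]
  refine mul_le_mul_of_nonneg_left ?_ (by positivity)
  refine (mul_le_mul_of_nonneg_left hz (by positivity)).trans (le_trans (le_of_eq ?_) hn)
  ring

/-- One coordinate in one window. -/
lemma win_case {d Nab : ℝ} (hN : 0 ≤ Nab) {lo m : ℕ} (hm : 0 < m) (g : ℕ → ℝ) (bad : Finset ℕ)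
    (hbad : bad ⊆ Ico lo (lo + m)) (hg : ∀ i, |g i| ≤ 4 * 2⁻¹ ^ i * Nab)
    (hgood : ∀ i ∈ Ico lo (lo + m), i ∉ bad → g i = d) :
    |(∑ i ∈ Ico lo (lo + m), g i) / m| ≤ 2 / m * |d| + 5 / m * (∑ i ∈ bad, (2⁻¹:ℝ) ^ i) * Nab ∨
    |d - (∑ i ∈ Ico lo (lo + m), g i) / m| ≤
      2 / m * |d| + 5 / m * (∑ i ∈ bad, (2⁻¹:ℝ) ^ i) * Nab ∨
    (((2⁻¹:ℝ) ^ (lo + m - 1) * Nab < |d| ∧ |d| ≤ 4 * 2⁻¹ ^ lo * Nab) ∧
      |(∑ i ∈ Ico lo (lo + m), g i) / m| ≤
        |d| + (2 / m * |d| + 5 / m * (∑ i ∈ bad, (2⁻¹:ℝ) ^ i) * Nab)) := by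
  have hmR : (0:ℝ) < m := by exact_mod_cast hm
  have hcard : (Ico lo (lo + m)).card = m := by simp
  have hG : 0 ≤ 5 / m * (∑ i ∈ bad, (2⁻¹:ℝ) ^ i) * Nab := by positivity
  have hd : 0 ≤ 2 / (m:ℝ) * |d| := by positivity
  have e5 : 5 / (m:ℝ) * (∑ i ∈ bad, (2⁻¹:ℝ) ^ i) * Nab = (∑ i ∈ bad, 5 * (2⁻¹:ℝ) ^ i * Nab) / m := by
    rw [← sum_mul, ← mul_sum]; ring
  by_cases htop : 4 * (2⁻¹:ℝ) ^ lo * Nab < |d|
  · left
    have hgeo := geo (q := (2⁻¹:ℝ)) (by norm_num) (by norm_num) (Ico lo (lo + m)) lo fun i hi => (mem_Ico.1 hi).1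
    rw [abs_div, Nat.abs_cast, div_le_iff₀ hmR]
    refine (abs_sum_le_sum_abs _ _).trans ((sum_le_sum fun i _ => hg i).trans ?_)
    rw [← sum_mul, ← mul_sum]
    have h1 : ∑ i ∈ Ico lo (lo + m), (2⁻¹:ℝ) ^ i ≤ 2 * 2⁻¹ ^ lo := hgeo.trans (le_of_eq (by ring))
    have h2 : (2 / m * |d| + 5 / m * (∑ i ∈ bad, (2⁻¹:ℝ) ^ i) * Nab) * m =
        2 * |d| + 5 * (∑ i ∈ bad, (2⁻¹:ℝ) ^ i) * Nab := by field_simp
    have h3 := mul_le_mul_of_nonneg_right h1 hN
    have h4 : 0 ≤ (∑ i ∈ bad, (2⁻¹:ℝ) ^ i) * Nab := by positivity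
    nlinarith
  by_cases hbot : |d| ≤ (2⁻¹:ℝ) ^ (lo + m - 1) * Nab
  · right; left
    have hexp : d - (∑ i ∈ Ico lo (lo + m), g i) / m = (∑ i ∈ bad, (d - g i)) / m := by
      rw [sum_subset hbad fun i hi hib => by rw [hgood i hi hib, sub_self],
        sum_sub_distrib, sum_const, hcard, nsmul_eq_mul, sub_div, mul_div_cancel_left₀ _ hmR.ne']
    rw [hexp, abs_div, Nat.abs_cast]
    refine le_trans ?_ (le_add_of_nonneg_left hd)
    rw [e5]
    refine div_le_div_of_nonneg_right ((abs_sum_le_sum_abs _ _).trans (sum_le_sum fun i hi => ?_)) hmR.le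
    have hi' : i ≤ lo + m - 1 := by
      have := (mem_Ico.1 (hbad hi)).2; omega
    have h1 : |d| ≤ (2⁻¹:ℝ) ^ i * Nab := hbot.trans (mul_le_mul_of_nonneg_right
      (pow_le_pow_of_le_one (by norm_num) (by norm_num) hi') hN)
    linarith [abs_sub d (g i), hg i]
  · right; right
    refine ⟨⟨not_le.1 hbot, not_lt.1 htop⟩, ?_⟩
    rw [abs_div, Nat.abs_cast, div_le_iff₀ hmR]
    refine (abs_sum_le_sum_abs _ _).trans ((sum_le_sum (g := fun i =>
      |d| + if i ∈ bad then 5 * (2⁻¹:ℝ) ^ i * Nab else 0) fun i hi => ?_).trans ?_)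
    · by_cases hib : i ∈ bad
      · rw [if_pos hib]
        have : 0 ≤ (2⁻¹:ℝ) ^ i * Nab := by positivity
        linarith [abs_nonneg d, hg i]
      · rw [if_neg hib, add_zero, hgood i hi hib]
    · rw [sum_add_distrib, sum_const, hcard, nsmul_eq_mul, sum_ite_mem, inter_eq_right.2 hbad, e5]
      have h2 : (|d| + (2 / m * |d| + (∑ i ∈ bad, 5 * (2⁻¹:ℝ) ^ i * Nab) / m)) * m =
          m * |d| + 2 * |d| + ∑ i ∈ bad, 5 * (2⁻¹:ℝ) ^ i * Nab := by field_simp; ring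
      linarith [abs_nonneg d]

lemma geo_rpow (hp : 0 < p) (B : Finset ℕ) :
    (∑ i ∈ B, (2⁻¹:ℝ) ^ i) ^ p ≤ 2 ^ p * ∑ i ∈ B, ((2⁻¹:ℝ) ^ i) ^ p := by
  rcases B.eq_empty_or_nonempty with h | h
  · simp [h, Real.zero_rpow hp.ne']
  · have h1 := geo (q := (2⁻¹:ℝ)) (by norm_num) (by norm_num) B (B.min' h) fun i hi => min'_le _ i hi
    refine (Real.rpow_le_rpow (by positivity)
      (h1.trans (le_of_eq (by ring : _ = 2 * (2⁻¹:ℝ) ^ B.min' h))) hp.le).trans ?_
    rw [Real.mul_rpow (by norm_num) (by positivity)]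
    exact mul_le_mul_of_nonneg_left (single_le_sum (f := fun i => ((2⁻¹:ℝ) ^ i) ^ p)
      (fun i _ => by positivity) (min'_mem _ h)) (by positivity)

lemma mid_card {W i₀ m : ℕ} (hm : 3 ≤ m) {A Nab : ℝ} (hN : 0 ≤ Nab) :
    ((univ : Finset (Fin W)).filter fun w : Fin W =>
      (2⁻¹:ℝ) ^ (i₀ + (w:ℕ) * m + m - 1) * Nab < A ∧ A ≤ 4 * 2⁻¹ ^ (i₀ + (w:ℕ) * m) * Nab).card ≤ 2 := by
  set S := (univ : Finset (Fin W)).filter fun w : Fin W =>
      (2⁻¹:ℝ) ^ (i₀ + (w:ℕ) * m + m - 1) * Nab < A ∧ A ≤ 4 * 2⁻¹ ^ (i₀ + (w:ℕ) * m) * Nab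
  rcases S.eq_empty_or_nonempty with h | h
  · simp [h]
  · set w₀ := S.min' h
    have hw₀ := (mem_filter.1 (min'_mem _ h)).2
    have hle : ∀ w ∈ S, (w:ℕ) ≤ w₀ + 1 := by
      intro w hw
      by_contra hlt
      rw [not_le] at hlt
      have hexp : i₀ + (w₀:ℕ) * m + m - 1 + 2 ≤ i₀ + (w:ℕ) * m := by
        have : ((w₀:ℕ) + 1 + 1) * m ≤ (w:ℕ) * m := Nat.mul_le_mul_right m hlt
        rw [add_mul, add_mul, one_mul] at this
        omega
      have h4 : 4 * (2⁻¹:ℝ) ^ (i₀ + (w:ℕ) * m) ≤ (2⁻¹:ℝ) ^ (i₀ + (w₀:ℕ) * m + m - 1) := by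
        calc 4 * (2⁻¹:ℝ) ^ (i₀ + (w:ℕ) * m) ≤ 4 * (2⁻¹:ℝ) ^ (i₀ + (w₀:ℕ) * m + m - 1 + 2) :=
              mul_le_mul_of_nonneg_left (pow_le_pow_of_le_one (by norm_num) (by norm_num) hexp) (by norm_num)
          _ = _ := by rw [pow_add]; ring
      linarith [(mem_filter.1 hw).2.2, hw₀.1, mul_le_mul_of_nonneg_right h4 hN]
    calc S.card = (S.image fun w : Fin W => (w:ℕ)).card := (card_image_of_injective _ Fin.val_injective).symm
      _ ≤ ({(w₀:ℕ), (w₀:ℕ) + 1} : Finset ℕ).card := card_le_card fun v hv => by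
          obtain ⟨w, hw, rfl⟩ := mem_image.1 hv
          have h1 : (w₀:ℕ) ≤ w := min'_le _ w hw
          have h2 := hle w hw
          simp only [Finset.mem_insert, Finset.mem_singleton]; omega
      _ ≤ 2 := card_le_two

/-- Summation over the coordinates of one window. -/
lemma win_sum (hp : 1 ≤ p) {ε C A Nab : ℝ} (hε : 0 ≤ ε) (hC0 : 0 ≤ C) (hN : 0 ≤ Nab)
    (hC : ∀ u v : ℝ, |(|u + v| ^ p) - |u| ^ p| ≤ ε * |u| ^ p + C * |v| ^ p)
    {m : ℕ} (hm : 0 < m) (d b : Fin M → ℝ) (hNd : ∑ k, |d k| ^ p = Nab ^ p) (bad : Fin M → Finset ℕ)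
    (mid : Fin M → Prop) [DecidablePred mid]
    (hcase : ∀ k, |b k| ≤ 2 / m * |d k| + 5 / m * (∑ i ∈ bad k, (2⁻¹:ℝ) ^ i) * Nab ∨
      |d k - b k| ≤ 2 / m * |d k| + 5 / m * (∑ i ∈ bad k, (2⁻¹:ℝ) ^ i) * Nab ∨
      (mid k ∧ |b k| ≤ |d k| + (2 / m * |d k| + 5 / m * (∑ i ∈ bad k, (2⁻¹:ℝ) ^ i) * Nab)))
    (hleak : ∑ k, ∑ i ∈ bad k, ((2⁻¹:ℝ) ^ i) ^ p ≤ A) :
    |((∑ k, |b k| ^ p) + ∑ k, |d k - b k| ^ p) - Nab ^ p| ≤
      (ε + (C + 4 * 4 ^ p) * 4 ^ p / m) * Nab ^ p +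
        (C + 4 * 4 ^ p) * (20 ^ p / (m:ℝ) ^ p) * A * Nab ^ p +
        4 * 4 ^ p * ∑ k, (if mid k then |d k| ^ p else 0) := by
  have hp0 : 0 < p := by linarith
  have hmR : (0:ℝ) < m := by exact_mod_cast hm
  set C₁ : ℝ := C + 4 * 4 ^ p
  have hC₁ : 0 ≤ C₁ := by positivity
  have hc1 : 2 ^ p * (2 / m:ℝ) ^ p ≤ 4 ^ p / m := by
    rw [Real.div_rpow (by norm_num) hmR.le, ← mul_div_assoc, ← Real.mul_rpow (by norm_num) (by norm_num)]
    norm_num
    refine div_le_div_of_nonneg_left (by positivity) hmR ?_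
    exact Real.self_le_rpow_of_one_le (by exact_mod_cast hm) hp
  have hc2 : 2 ^ p * ((5 / m:ℝ) ^ p * 2 ^ p) = 20 ^ p / (m:ℝ) ^ p := by
    rw [Real.div_rpow (by norm_num) hmR.le, show (20:ℝ) = 2 * (5 * 2) by norm_num,
      Real.mul_rpow (by norm_num) (by norm_num), Real.mul_rpow (by norm_num) (by norm_num)]
    ring
  have hsc : ∀ k, |(|b k| ^ p + |d k - b k| ^ p) - |d k| ^ p| ≤
      (ε + C₁ * 4 ^ p / m) * |d k| ^ p +
        C₁ * (20 ^ p / (m:ℝ) ^ p) * (∑ i ∈ bad k, ((2⁻¹:ℝ) ^ i) ^ p) * Nab ^ p +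
        4 * 4 ^ p * (if mid k then |d k| ^ p else 0) := by
    intro k
    refine (split_scalar hp hC0 hC hε (by positivity) (hcase k)).trans (add_le_add ?_ ?_)
    · rw [add_mul ε, add_assoc]
      refine add_le_add le_rfl ?_
      refine (mul_le_mul_of_nonneg_left (rpow_add_le hp (by positivity) (by positivity)) hC₁).trans ?_
      rw [Real.mul_rpow (by positivity) (abs_nonneg _), Real.mul_rpow (by positivity) hN,
        Real.mul_rpow (by positivity) (by positivity), ← hc2]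
      have h1 := mul_le_mul_of_nonneg_left (mul_le_mul_of_nonneg_right hc1 (show 0 ≤ |d k| ^ p by positivity)) hC₁
      have h2 := mul_le_mul_of_nonneg_left (geo_rpow hp0 (bad k))
        (show 0 ≤ C₁ * (2 ^ p * ((5 / m:ℝ) ^ p * Nab ^ p)) by positivity)
      have e : C₁ * (4 ^ p / m * |d k| ^ p) = C₁ * 4 ^ p / m * |d k| ^ p := by ring
      nlinarith
    · split_ifs <;> simp
  rw [← hNd, ← sum_add_distrib, ← sum_sub_distrib]
  refine (abs_sum_le_sum_abs _ _).trans ((sum_le_sum fun k _ => hsc k).trans ?_)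
  simp only [sum_add_distrib, ← mul_sum, ← sum_mul, hNd]
  gcongr

/-- Final arithmetic of the decomposition. -/
lemma final_le {W : ℕ} (hW : 0 < W) {ε T R K X : ℝ} (hX : 0 ≤ X) (hK : 0 ≤ K) (hT : T ≤ ε / 4)
    (hR : R ≤ ε / 4) (hKW : K * 2 / W ≤ ε / 4) (v : Fin W → ℝ) (q : Fin W → ℝ)
    (hv : ∀ w, |v w - X| ≤ (ε / 4 + T) * X + R * X + K * q w) (hq : ∑ w, q w ≤ 2 * X) :
    |(∑ w, v w) / W - X| ≤ ε * X := by
  have hWR : (0:ℝ) < W := by exact_mod_cast hW
  have e : (∑ w, v w) / W - X = (∑ w, (v w - X)) / W := by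
    rw [sum_sub_distrib, sum_const, card_univ, Fintype.card_fin, nsmul_eq_mul, sub_div,
      mul_div_cancel_left₀ _ hWR.ne']
  rw [e, abs_div, Nat.abs_cast, div_le_iff₀ hWR]
  refine (abs_sum_le_sum_abs _ _).trans ((sum_le_sum fun w _ => hv w).trans ?_)
  rw [sum_add_distrib, sum_const, card_univ, Fintype.card_fin, nsmul_eq_mul, ← mul_sum]
  rw [div_le_iff₀ hWR] at hKW
  have h3 := mul_le_mul_of_nonneg_left hq hK
  have h4 := mul_le_mul_of_nonneg_right hKW hX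
  have h5 := mul_le_mul_of_nonneg_left (add_le_add (mul_le_mul_of_nonneg_right hT hX)
    (mul_le_mul_of_nonneg_right hR hX)) hWR.le
  nlinarith

/-- The decomposition into windows. -/
theorem decomp (hp : 1 < p) {ε η : ℝ} (hε : 0 < ε) (hη : 0 < η) :
    ∃ (W n₀ : ℕ), 0 < W ∧ ∀ n, n₀ ≤ n → ∀ (M : ℕ) (x : Fin n → Fin M → ℝ),
      ∃ H : Fin W → Fin n → Fin M → ℝ,
        (∀ w a b k, |H w a k - H w b k| ^ p ≤ (n:ℝ) ^ (-η) * N p (x a) (x b) ^ p) ∧
        (∀ w a, ((univ.filter fun k => x a k - H w a k ≠ 0).card : ℝ) ≤ (n:ℝ) ^ (3 * η)) ∧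
        (∀ a b, |(∑ w, ((∑ k, |H w a k - H w b k| ^ p) +
            ∑ k, |(x a k - H w a k) - (x b k - H w b k)| ^ p)) / W - N p (x a) (x b) ^ p| ≤
          ε * N p (x a) (x b) ^ p) := by
  classical
  have hp0 : 0 < p := by linarith
  obtain ⟨C, hC0, hC⟩ := perturb hp0 (show 0 < ε / 4 by positivity)
  set C₁ : ℝ := C + 4 * 4 ^ p with hC1
  have hC10 : 0 < C₁ := by positivity
  obtain ⟨W, hW⟩ := exists_nat_gt (8 * (4 * (4:ℝ) ^ p) / ε)
  have hW0 : 0 < W := by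
    rcases Nat.eq_zero_or_pos W with rfl | h
    · exact absurd hW (not_lt.2 (by simp only [Nat.cast_zero]; positivity))
    · exact h
  set K : ℝ := C₁ * 20 ^ p * 2 * (W * p * Real.log 2 / η) ^ p with hK
  have hl2 : 0 < Real.log 2 := Real.log_pos (by norm_num)
  set ζ : ℝ := ε / (4 * (K + 1)) with hζ
  have hK0 : 0 ≤ K := by positivity
  obtain ⟨n₁, hn₁⟩ := covers hp (show 0 < ζ by positivity)
  set B : ℝ := (4 * C₁ * 4 ^ p / ε + 1) * (W * p * Real.log 2 / η) + 1 with hB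
  obtain ⟨n₂, hn₂⟩ := eventually_atTop.1 (numerics hp (ζ := ζ) hη W B)
  refine ⟨W, max n₁ (max n₂ 2), hW0, fun n hn M x => ?_⟩
  simp only [max_le_iff] at hn
  obtain ⟨C', hLip, hcost⟩ := hn₁ n hn.1 M x
  obtain ⟨hBL, hnum⟩ := hn₂ n hn.2.1
  set L := Real.log n with hL
  have hn0 : (0:ℝ) < n := by exact_mod_cast (show 0 < n by omega)
  have hB1 : 1 ≤ B := by
    rw [hB]; linarith [show 0 ≤ (4 * C₁ * 4 ^ p / ε + 1) * (W * p * Real.log 2 / η) by positivity]
  have hL0 : 0 < L := by linarith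
  set ℓ : ℝ := η * L / (p * Real.log 2) with hℓ
  set i₀ : ℕ := ⌈ℓ⌉₊ + 3 with hi₀
  set m : ℕ := ⌈ℓ / W⌉₊ + 3 with hm
  have hm3 : 3 ≤ m := by omega
  have hm0 : (0:ℝ) < m := by exact_mod_cast (show 0 < m by omega)
  have hWR : (0:ℝ) < W := by exact_mod_cast hW0
  have hen : ∀ c : ℝ, (n:ℝ) ^ (c * η) = (2:ℝ) ^ (c * ℓ * p) := by
    intro c
    rw [Real.rpow_def_of_pos hn0, Real.rpow_def_of_pos two_pos, ← hL]
    congr 1
    simp only [hℓ]; field_simp
  choose h hhU hhL using fun i k => extend hp.le x (univ \ C' i k) (fun a => x a k)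
    (show (0:ℝ) ≤ 4 * 2⁻¹ ^ i by positivity) (fun a ha b hb => hLip i k a b (mem_sdiff.1 ha).2 (mem_sdiff.1 hb).2)
  let I : Fin W → Finset ℕ := fun w => Ico (i₀ + w * m) (i₀ + w * m + m)
  have hIcard : ∀ w, (I w).card = m := fun w => by simp [I]
  let H : Fin W → Fin n → Fin M → ℝ := fun w a k => (∑ i ∈ I w, h i k a) / m
  have hHd : ∀ w a b k, H w a k - H w b k = (∑ i ∈ I w, (h i k a - h i k b)) / m := by
    intro w a b k; simp only [H, ← sub_div, ← sum_sub_distrib]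
  refine ⟨H, fun w a b k => ?_, fun w a => ?_, fun a b => ?_⟩
  · have hlam : 4 * (2⁻¹:ℝ) ^ i₀ ≤ (2:ℝ) ^ (-ℓ) := by
      rw [inv_pow, ← Real.rpow_natCast, ← Real.rpow_neg (by norm_num),
        show (4:ℝ) = (2:ℝ) ^ (2:ℝ) by norm_num, ← Real.rpow_add (by norm_num)]
      refine Real.rpow_le_rpow_of_exponent_le (by norm_num) ?_
      have := Nat.le_ceil ℓ
      rw [hi₀]; push_cast
      linarith
    have hd : |H w a k - H w b k| ≤ (2:ℝ) ^ (-ℓ) * N p (x a) (x b) := by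
      rw [hHd, abs_div, Nat.abs_cast, div_le_iff₀ hm0]
      refine (abs_sum_le_sum_abs _ _).trans ((sum_le_sum (g := fun _ => (2:ℝ) ^ (-ℓ) * N p (x a) (x b))
        fun i hi => ?_).trans (le_of_eq (by rw [sum_const, hIcard, nsmul_eq_mul, mul_comm])))
      refine (hhL i k a b).trans (mul_le_mul_of_nonneg_right (le_trans ?_ hlam) (N_nonneg _ _))
      exact mul_le_mul_of_nonneg_left (pow_le_pow_of_le_one (by norm_num) (by norm_num)
        (le_trans (Nat.le_add_right _ _) (mem_Ico.1 hi).1)) (by norm_num)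
    refine (Real.rpow_le_rpow (abs_nonneg _) hd hp0.le).trans (le_of_eq ?_)
    rw [Real.mul_rpow (by positivity) (N_nonneg _ _), ← Real.rpow_mul (by norm_num),
      show -η = (-1) * η by ring, hen]
    congr 2; ring
  · have hsub : ∀ k ∈ univ.filter (fun k => x a k - H w a k ≠ 0), ∃ i ∈ I w, a ∈ C' i k := by
      intro k hk
      by_contra hcon
      simp only [not_exists, not_and] at hcon
      refine (mem_filter.1 hk).2 (sub_eq_zero.2 ?_)
      simp only [H]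
      rw [sum_congr rfl (fun i hi => hhU i k a (mem_sdiff.2 ⟨mem_univ _, hcon i hi⟩)), sum_const,
        hIcard, nsmul_eq_mul, mul_div_cancel_left₀ _ hm0.ne']
    set T : ℕ := i₀ + W * m
    set δ : ℝ := ((2⁻¹:ℝ) ^ T) ^ p with hδ
    have h1 : ((univ.filter fun k => x a k - H w a k ≠ 0).card : ℝ) * δ ≤ ζ * L ^ p := by
      refine le_trans ?_ (hcost a (I w))
      rw [← nsmul_eq_mul, ← sum_const]
      refine le_trans (sum_le_sum fun k hk => ?_) (sum_le_sum_of_subset_of_nonneg (subset_univ _)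
        fun k _ _ => sum_nonneg fun i _ => by split_ifs <;> positivity)
      obtain ⟨i, hi, hai⟩ := hsub k hk
      refine le_trans ?_ (single_le_sum (f := fun i => if a ∈ C' i k then ((2⁻¹:ℝ) ^ i) ^ p else 0)
        (fun i _ => by split_ifs <;> positivity) hi)
      rw [if_pos hai]
      refine Real.rpow_le_rpow (by positivity) (pow_le_pow_of_le_one (by norm_num) (by norm_num) ?_) hp0.le
      simp only [I, mem_Ico] at hi
      have : ((w:ℕ) + 1) * m ≤ W * m := Nat.mul_le_mul_right m w.isLt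
      rw [add_mul, one_mul] at this
      omega
    have h2 : δ⁻¹ ≤ (2:ℝ) ^ (p * (4 * W + 8)) * (n:ℝ) ^ (2 * η) := by
      rw [hδ, inv_pow, Real.inv_rpow (by positivity), inv_inv, ← Real.rpow_natCast,
        ← Real.rpow_mul (by norm_num), hen, ← Real.rpow_add (by norm_num)]
      refine Real.rpow_le_rpow_of_exponent_le (by norm_num) ?_
      have c1 := (Nat.ceil_lt_add_one (show 0 ≤ ℓ by positivity)).le
      have c2 := (Nat.ceil_lt_add_one (show 0 ≤ ℓ / W by positivity)).le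
      have c3 := mul_le_mul_of_nonneg_left c2 hWR.le
      rw [mul_add (W:ℝ), mul_div_cancel₀ _ hWR.ne', mul_one] at c3
      have hT : (T:ℝ) ≤ 2 * ℓ + (4 * W + 8) := by
        simp only [T, hi₀, hm]; push_cast
        linarith
      have := mul_le_mul_of_nonneg_right hT hp0.le
      linarith
    have hδ0 : 0 < δ := by positivity
    calc _ ≤ δ⁻¹ * (ζ * L ^ p) := by rw [inv_mul_eq_div, le_div_iff₀ hδ0]; exact h1
      _ ≤ _ := (mul_le_mul_of_nonneg_right h2 (by positivity)).trans hnum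
  · set Nab := N p (x a) (x b) with hNab
    have hN0 : 0 ≤ Nab := N_nonneg _ _
    have hℓm : ℓ / W ≤ m := (Nat.le_ceil _).trans (by simp [hm])
    have hq : W * p * Real.log 2 / η * (ℓ / W) = L := by simp only [hℓ]; field_simp
    have hLm : L ≤ W * p * Real.log 2 / η * m := by
      have := mul_le_mul_of_nonneg_left hℓm (show 0 ≤ W * p * Real.log 2 / η by positivity)
      linarith
    have t1 : C₁ * 4 ^ p / m ≤ ε / 4 := by
      rw [div_le_iff₀ hm0]
      have h1 : 4 * C₁ * 4 ^ p / ε + 1 ≤ m := by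
        have hb : W * p * Real.log 2 / η * (4 * C₁ * 4 ^ p / ε + 1) ≤ W * p * Real.log 2 / η * m := by
          rw [hB] at hBL; linarith
        exact le_of_mul_le_mul_left hb (by positivity)
      have := mul_le_mul_of_nonneg_left h1 (show 0 ≤ ε / 4 by positivity)
      have e : ε / 4 * (4 * C₁ * 4 ^ p / ε + 1) = C₁ * 4 ^ p + ε / 4 := by field_simp
      linarith
    have t2 : C₁ * (20 ^ p / (m:ℝ) ^ p) * (2 * (ζ * L ^ p)) ≤ ε / 4 := by
      have h1 : L ^ p / (m:ℝ) ^ p ≤ (W * p * Real.log 2 / η) ^ p := by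
        rw [← Real.div_rpow hL0.le hm0.le]
        exact Real.rpow_le_rpow (by positivity) (by rw [div_le_iff₀ hm0]; exact hLm) hp0.le
      calc _ = C₁ * 20 ^ p * 2 * (L ^ p / (m:ℝ) ^ p) * ζ := by ring
        _ ≤ K * ζ := by rw [hK]; gcongr
        _ ≤ ε / 4 := by rw [hζ, ← mul_div_assoc, div_le_iff₀ (by positivity)]; nlinarith
    have t3 : 4 * 4 ^ p * 2 / W ≤ ε / 4 := by
      rw [div_le_iff₀ hWR]
      rw [div_lt_iff₀ hε] at hW
      linarith [show (0:ℝ) < 4 ^ p by positivity]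
    let mid : Fin W → Fin M → Prop := fun w k =>
      (2⁻¹:ℝ) ^ (i₀ + (w:ℕ) * m + m - 1) * Nab < |x a k - x b k| ∧
        |x a k - x b k| ≤ 4 * (2⁻¹:ℝ) ^ (i₀ + (w:ℕ) * m) * Nab
    let bad : Fin W → Fin M → Finset ℕ := fun w k => (I w).filter fun i => a ∈ C' i k ∨ b ∈ C' i k
    refine final_le hW0 (Real.rpow_nonneg hN0 p) (show 0 ≤ 4 * (4:ℝ) ^ p by positivity) t1 t2 t3 _
      (fun w => ∑ k, if mid w k then |x a k - x b k| ^ p else 0) (fun w => ?_) ?_
    · have hleak : ∑ k, ∑ i ∈ bad w k, ((2⁻¹:ℝ) ^ i) ^ p ≤ 2 * (ζ * L ^ p) := by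
        refine le_trans ?_ (le_trans (add_le_add (hcost a (I w)) (hcost b (I w))) (le_of_eq (two_mul _).symm))
        rw [← sum_add_distrib]
        refine sum_le_sum fun k _ => ?_
        rw [← sum_add_distrib, sum_filter]
        refine sum_le_sum fun i _ => ?_
        have hq : 0 ≤ ((2⁻¹:ℝ) ^ i) ^ p := by positivity
        by_cases ha : a ∈ C' i k <;> by_cases hb : b ∈ C' i k <;>
          simp only [ha, hb, if_true, if_false, or_true, or_false, or_self] <;> linarith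
      have key : ∀ k i, i ∈ I w → i ∉ bad w k → h i k a - h i k b = x a k - x b k := by
        intro k i hi hib
        simp only [bad, mem_filter, not_and, not_or] at hib
        obtain ⟨ha, hb⟩ := hib hi
        rw [hhU i k a (mem_sdiff.2 ⟨mem_univ _, ha⟩), hhU i k b (mem_sdiff.2 ⟨mem_univ _, hb⟩)]
      have hs := win_sum hp.le (show 0 ≤ ε / 4 by positivity) hC0 hN0 hC (show 0 < m by omega)
        (fun k => x a k - x b k) (fun k => H w a k - H w b k) (N_rpow _ _ hp0).symm (bad w) (mid w)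
        (fun k => by
          simp only [hHd]
          exact win_case hN0 (by omega) (fun i => h i k a - h i k b) (bad w k) (filter_subset _ _)
            (fun i => hhL i k a b) (key k)) hleak
      have e : ∀ k, (x a k - H w a k) - (x b k - H w b k) = (x a k - x b k) - (H w a k - H w b k) :=
        fun k => sub_sub_sub_comm _ _ _ _
      simp only [e]
      exact hs
    · have hNp : Nab ^ p = ∑ k, |x a k - x b k| ^ p := N_rpow _ _ hp0
      rw [sum_comm, hNp, mul_sum]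
      refine sum_le_sum fun k _ => ?_
      rw [← sum_filter, sum_const, nsmul_eq_mul]
      refine mul_le_mul_of_nonneg_right ?_ (by positivity)
      exact_mod_cast mid_card hm3 hN0

end Vale.Agent.P249x
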