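import Vale.Agent.P249x.Step
import Vale.Agent.P249.Upper

/-!
# Subpolynomial dimension reduction in `L_p`: iteration of the step
-/

namespace Vale.Agent.P249x

open Finset MeasureTheory

/-- Relative errors compose. -/
lemma err_comp {A B S a ε : ℝ} (hS : 0 ≤ S) (ha : 0 ≤ a) (hε : a * (2 + a) ≤ ε)
    (h1 : |B - S| ≤ a * S) (h2 : |A - B| ≤ a * B) : |A - S| ≤ ε * S := by
  have hB : B ≤ (1 + a) * S := by linarith [(abs_le.1 h1).2]
  have h3 := mul_le_mul_of_nonneg_left hB ha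
  have h4 := mul_le_mul_of_nonneg_right hε hS
  calc |A - S| ≤ |A - B| + |B - S| := abs_sub_le _ _ _
    _ ≤ ε * S := by linarith

/-- `k` steps. -/
theorem iterate {p : ℝ} (hp : 1 < p) {η : ℝ} (hη : 0 < η) :
    ∀ (k : ℕ) {ε : ℝ}, 0 < ε → ∃ (C : ℝ) (n₀ : ℕ), 0 ≤ C ∧ 3 ≤ n₀ ∧ ∀ n, n₀ ≤ n →
      ∀ (M : ℕ) (x : Fin n → Fin M → ℝ), ∃ (d : ℕ) (f : Fin n → Fin d → ℝ),
        (d : ℝ) ≤ C * (Real.log n ^ k * ((M : ℝ) * (n : ℝ) ^ (-(k * η)) + (n : ℝ) ^ (4 * η))) ∧
        ∀ i j, |(∑ l, |f i l - f j l| ^ p) - ∑ l, |x i l - x j l| ^ p| ≤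
          ε * ∑ l, |x i l - x j l| ^ p := by
  intro k
  induction k with
  | zero =>
    intro ε hε
    refine ⟨1, 3, zero_le_one, le_rfl, fun n hn M x => ⟨M, x, ?_, fun i j => ?_⟩⟩
    · simp only [pow_zero, Nat.cast_zero, zero_mul, neg_zero, Real.rpow_zero, mul_one, one_mul]
      linarith [Real.rpow_nonneg (Nat.cast_nonneg (α := ℝ) n) (4 * η)]
    · rw [sub_self, abs_zero]
      exact mul_nonneg hε.le (sum_nonneg fun l _ => by positivity)
  | succ k ih =>
    intro ε hε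
    set a := min (ε / 3) 1 with ha_def
    have ha : 0 < a := lt_min (by linarith) one_pos
    have hae : a * (2 + a) ≤ ε := by
      have h1 : a ≤ ε / 3 := min_le_left _ _
      have h2 : a ≤ 1 := min_le_right _ _
      nlinarith [mul_le_mul_of_nonneg_left h2 ha.le]
    obtain ⟨C, n₀, hC, hn₀, h⟩ := ih ha
    obtain ⟨C', n₁, h'⟩ := step hp ha hη
    refine ⟨max C' 0 * (C + 1), max n₀ n₁, mul_nonneg (le_max_right _ _) (by linarith),
      le_trans hn₀ (le_max_left _ _), fun n hn M x => ?_⟩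
    have hn3 : 3 ≤ n := le_trans hn₀ (le_trans (le_max_left _ _) hn)
    obtain ⟨d, f, hd, hf⟩ := h n (le_trans (le_max_left _ _) hn) M x
    obtain ⟨d', g, hd', hg⟩ := h' n (le_trans (le_max_right _ _) hn) d f
    refine ⟨d', g, ?_, fun i j => err_comp (sum_nonneg fun l _ => by positivity) ha.le hae
      (hf i j) (hg i j)⟩
    have hn' : (3:ℝ) ≤ n := by exact_mod_cast hn3
    have hn0 : (0:ℝ) < n := by linarith
    have hn1 : (1:ℝ) ≤ n := by linarith
    have hL : 1 ≤ Real.log n := by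
      rw [Real.le_log_iff_exp_le hn0]
      linarith [Real.exp_one_lt_d9]
    set L := Real.log n
    set A := (M : ℝ) * (n : ℝ) ^ (-((k + 1 : ℕ) * η))
    set B := (n : ℝ) ^ (4 * η)
    have hA : 0 ≤ A := by positivity
    have hB : 0 ≤ B := by positivity
    have hLk : 1 ≤ L ^ k := one_le_pow₀ hL
    have hstep : (d : ℝ) * (n : ℝ) ^ (-η) ≤ C * (L ^ k * (A + B)) := by
      refine (mul_le_mul_of_nonneg_right hd (Real.rpow_nonneg hn0.le _)).trans ?_
      rw [mul_assoc, mul_assoc, add_mul]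
      refine mul_le_mul_of_nonneg_left (mul_le_mul_of_nonneg_left (add_le_add ?_ ?_) (by linarith)) hC
      · rw [mul_assoc, ← Real.rpow_add hn0]
        exact le_of_eq (by simp only [A]; congr 2; push_cast; ring)
      · exact mul_le_of_le_one_right hB (Real.rpow_le_one_of_one_le_of_nonpos hn1 (by linarith))
    refine hd'.trans ?_
    calc C' * (L * ((d : ℝ) * (n : ℝ) ^ (-η) + B))
        ≤ max C' 0 * (L * ((C + 1) * (L ^ k * (A + B)))) := by
          refine mul_le_mul (le_max_left _ _) (mul_le_mul_of_nonneg_left ?_ (by linarith))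
            (mul_nonneg (by linarith) (add_nonneg (by positivity) hB)) (le_max_right _ _)
          have : B ≤ L ^ k * (A + B) :=
            (le_mul_of_one_le_left hB hLk).trans (mul_le_mul_of_nonneg_left (by linarith) (by linarith))
          linarith
      _ = _ := by rw [pow_succ]; ring

/-- The almost linear bound, for every distortion. -/
theorem start {p : ℝ} [Fact (1 ≤ ENNReal.ofReal p)] (hp : 1 ≤ p) {ε : ℝ} (hε : 0 < ε) :
    ∃ C : ℝ, 0 ≤ C ∧ ∀ (n : ℕ), 2 ≤ n → ∀ (α : Type*) [MeasurableSpace α] (μ : Measure α)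
      (x : Fin n → Lp ℝ (ENNReal.ofReal p) μ), ∃ (d : ℕ) (f : Fin n → Fin d → ℝ) (s : ℝ),
        (d : ℝ) ≤ C * (n * Real.log n ^ (p + 3)) + 2 ∧ 0 < s ∧
        ∀ i j, s * ‖x i - x j‖ ≤ (∑ l, |f i l - f j l| ^ p) ^ (1/p) ∧
          (∑ l, |f i l - f j l| ^ p) ^ (1/p) ≤ (1 + ε) * (s * ‖x i - x j‖) := by
  have hp0 : 0 < p := by linarith
  have hpe : 1 < (1 + ε) ^ p := Real.one_lt_rpow (by linarith) hp0
  set δ : ℝ := min (1/4) (((1 + ε) ^ p - 1) / 8) with hδ
  have hδ0 : 0 < δ := lt_min (by norm_num) (by linarith)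
  refine ⟨3 * 99 * 8 ^ p / δ ^ 2, by positivity, fun n hn α _ μ x => ?_⟩
  obtain ⟨d, f, s, hd, hs, hf⟩ := Vale.Agent.P249.upper hp hδ0 (min_le_left _ _) hn x
  refine ⟨d, f, s, hd, hs, fun i j => ⟨(hf i j).1, (hf i j).2.trans
    (mul_le_mul_of_nonneg_right ?_ (mul_nonneg hs.le (norm_nonneg _)))⟩⟩
  calc (1 + 8 * δ) ^ (1/p) ≤ ((1 + ε) ^ p) ^ (1/p) := by
        apply Real.rpow_le_rpow (by linarith) _ (by positivity)
        have := min_le_right (1/4:ℝ) (((1 + ε) ^ p - 1) / 8)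
        rw [← hδ] at this; linarith
    _ = 1 + ε := by rw [← Real.rpow_mul (by linarith), mul_one_div_cancel hp0.ne', Real.rpow_one]

/-- **Main theorem.** -/
theorem subpolynomial {p : ℝ} [Fact (1 ≤ ENNReal.ofReal p)] (hp : 1 < p) {ε : ℝ} (hε : 0 < ε)
    {κ : ℝ} (hκ : 0 < κ) :
    ∃ C : ℝ, 0 ≤ C ∧ ∀ (n : ℕ), 2 ≤ n → ∀ (α : Type*) [MeasurableSpace α] (μ : Measure α)
      (x : Fin n → Lp ℝ (ENNReal.ofReal p) μ), ∃ (d : ℕ) (f : Fin n → Fin d → ℝ) (s : ℝ),
        (d : ℝ) ≤ C * (n : ℝ) ^ κ ∧ 0 < s ∧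
        ∀ i j, s * ‖x i - x j‖ ≤ (∑ l, |f i l - f j l| ^ p) ^ (1/p) ∧
          (∑ l, |f i l - f j l| ^ p) ^ (1/p) ≤ (1 + ε) * (s * ‖x i - x j‖) := by
  have hp0 : 0 < p := by linarith
  obtain ⟨e, he, hee⟩ : ∃ e, 0 < e ∧ e < ε := ⟨ε / 2, by linarith, by linarith⟩
  set R := ((1 + ε) / (1 + e)) ^ p with hR_def
  have hR : 1 < R := Real.one_lt_rpow (by rw [lt_div_iff₀ (by linarith)]; linarith) hp0
  set a := (R - 1) / (R + 1) with ha_def
  have ha : 0 < a := div_pos (by linarith) (by linarith)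
  have ha1 : a < 1 := by rw [ha_def, div_lt_one (by linarith)]; linarith
  have haR : 1 + a = R * (1 - a) := by rw [ha_def]; field_simp; ring
  set η := κ / 5 with hη_def
  have hη : 0 < η := by positivity
  set k := ⌈2 / η⌉₊ + 1 with hk_def
  have hk : 2 ≤ (k : ℝ) * η := by
    have h1 : 2 / η ≤ (k : ℝ) := by
      rw [hk_def]; push_cast; linarith [Nat.le_ceil (2 / η)]
    rwa [div_le_iff₀ hη] at h1
  obtain ⟨C, n₀, hC, hn₀, hit⟩ := iterate hp hη k ha
  obtain ⟨C₀, hC₀, hst⟩ := start (p := p) hp.le he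
  set m : ℝ := (k : ℝ) + (p + 3) with hm_def
  have hm : 0 < m := by positivity
  set P := ((1 : ℝ) / (η / m)) ^ m with hP_def
  have hP : 0 ≤ P := by positivity
  refine ⟨C * ((C₀ + 3) * P) + (C₀ * ((n₀ : ℝ) * Real.log n₀ ^ (p + 3)) + 2),
    by have : 0 ≤ Real.log (n₀ : ℝ) := Real.log_natCast_nonneg _; positivity,
    fun n hn α _ μ x => ?_⟩
  obtain ⟨d, g, s, hd, hs, hg⟩ := hst n hn α μ x
  have hn' : (2:ℝ) ≤ n := by exact_mod_cast hn
  have hn0 : (0:ℝ) < n := by linarith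
  have hn1 : (1:ℝ) ≤ n := by linarith
  have hnκ : 1 ≤ (n:ℝ) ^ κ := Real.one_le_rpow hn1 hκ.le
  rcases lt_or_ge n n₀ with hlt | hge
  · refine ⟨d, g, s, hd.trans ?_, hs, fun i j => ⟨(hg i j).1, (hg i j).2.trans
      (mul_le_mul_of_nonneg_right (by linarith) (mul_nonneg hs.le (norm_nonneg _)))⟩⟩
    have hle : (n:ℝ) * Real.log n ^ (p + 3) ≤ (n₀:ℝ) * Real.log n₀ ^ (p + 3) := by
      have h1 : (n:ℝ) ≤ n₀ := by exact_mod_cast hlt.le
      exact mul_le_mul h1 (Real.rpow_le_rpow (Real.log_natCast_nonneg _)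
        (Real.log_le_log hn0 h1) (by linarith)) (Real.rpow_nonneg (Real.log_natCast_nonneg _) _)
        (Nat.cast_nonneg _)
    have h3 : 0 ≤ C * ((C₀ + 3) * P) := by positivity
    refine le_trans ?_ (le_mul_of_one_le_right
      (by have : 0 ≤ Real.log (n₀ : ℝ) := Real.log_natCast_nonneg _; positivity) hnκ)
    linarith [mul_le_mul_of_nonneg_left hle hC₀]
  obtain ⟨d', f, hd', hf⟩ := hit n hge d g
  refine ⟨d', f, (1 - a) ^ (1/p) * s, hd'.trans ?_,
    mul_pos (Real.rpow_pos_of_pos (by linarith) _) hs, fun i j => ?_⟩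
  · have hn3 : (3:ℝ) ≤ n := by exact_mod_cast le_trans hn₀ hge
    have hL : 1 ≤ Real.log n := by
      rw [Real.le_log_iff_exp_le hn0]
      linarith [Real.exp_one_lt_d9]
    set L := Real.log n
    set B := (n:ℝ) ^ (4 * η)
    have hB : 1 ≤ B := Real.one_le_rpow hn1 (by positivity)
    have hLp : 1 ≤ L ^ (p + 3) := Real.one_le_rpow hL (by linarith)
    have hdn : (d:ℝ) * (n:ℝ) ^ (-((k:ℝ) * η)) ≤ (C₀ + 2) * L ^ (p + 3) := by
      have h1 : (n:ℝ) ^ (-((k:ℝ) * η)) ≤ (n:ℝ) ^ (-(1:ℝ)) :=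
        Real.rpow_le_rpow_of_exponent_le hn1 (by linarith)
      have h2 : (d:ℝ) ≤ (C₀ + 2) * L ^ (p + 3) * n := by
        have h4 : (2:ℝ) ≤ 2 * (L ^ (p + 3) * n) :=
          le_mul_of_one_le_right (by norm_num) (one_le_mul_of_one_le_of_one_le hLp hn1)
        linarith
      calc _ ≤ (C₀ + 2) * L ^ (p + 3) * n * (n:ℝ) ^ (-(1:ℝ)) :=
            mul_le_mul h2 h1 (Real.rpow_nonneg hn0.le _) (by positivity)
        _ = _ := by rw [Real.rpow_neg_one, mul_assoc _ (n:ℝ), mul_inv_cancel₀ hn0.ne', mul_one]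
    have hsum : (d:ℝ) * (n:ℝ) ^ (-((k:ℝ) * η)) + B ≤ (C₀ + 3) * (L ^ (p + 3) * B) := by
      have h1 : L ^ (p + 3) ≤ L ^ (p + 3) * B := le_mul_of_one_le_right (by positivity) hB
      have h2 : B ≤ L ^ (p + 3) * B := le_mul_of_one_le_left (by positivity) hLp
      linarith [mul_le_mul_of_nonneg_left h1 (show 0 ≤ C₀ + 2 by linarith)]
    have hlog : L ^ m ≤ P * (n:ℝ) ^ η := by
      have hδ : 0 < η / m := div_pos hη hm
      calc L ^ m ≤ ((n:ℝ) ^ (η / m) / (η / m)) ^ m :=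
            Real.rpow_le_rpow (by linarith) (Real.log_le_rpow_div hn0.le hδ) hm.le
        _ = P * ((n:ℝ) ^ (η / m)) ^ m := by
            rw [hP_def, ← Real.mul_rpow (by positivity) (by positivity), one_div_mul_eq_div]
        _ = _ := by rw [← Real.rpow_mul hn0.le, div_mul_cancel₀ _ hm.ne']
    calc C * (L ^ k * ((d:ℝ) * (n:ℝ) ^ (-((k:ℝ) * η)) + B))
        ≤ C * (L ^ k * ((C₀ + 3) * (L ^ (p + 3) * B))) :=
          mul_le_mul_of_nonneg_left (mul_le_mul_of_nonneg_left hsum (by positivity)) hC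
      _ = C * ((C₀ + 3) * (L ^ m * B)) := by
          rw [hm_def, Real.rpow_add (by linarith) (k:ℝ), Real.rpow_natCast]; ring
      _ ≤ C * ((C₀ + 3) * (P * (n:ℝ) ^ η * B)) :=
          mul_le_mul_of_nonneg_left (mul_le_mul_of_nonneg_left
            (mul_le_mul_of_nonneg_right hlog (by positivity)) (by linarith)) hC
      _ = C * ((C₀ + 3) * P) * (n:ℝ) ^ κ := by
          have : (n:ℝ) ^ κ = (n:ℝ) ^ η * B := by
            simp only [B]; rw [← Real.rpow_add hn0]; congr 1; rw [hη_def]; ring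
          rw [this]; ring
      _ ≤ _ := by
          refine mul_le_mul_of_nonneg_right (le_add_of_nonneg_right ?_) (by positivity)
          have : 0 ≤ Real.log (n₀ : ℝ) := Real.log_natCast_nonneg _
          positivity
  · set N := ‖x i - x j‖
    have hN : 0 ≤ N := norm_nonneg _
    set S := ∑ l, |g i l - g j l| ^ p
    set T := ∑ l, |f i l - f j l| ^ p
    have hS : 0 ≤ S := sum_nonneg fun l _ => by positivity
    have hT : 0 ≤ T := sum_nonneg fun l _ => by positivity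
    obtain ⟨h1, h2⟩ := abs_le.1 (hf i j)
    have h1a : (0:ℝ) ≤ (1 - a) ^ (1/p) := Real.rpow_nonneg (by linarith) _
    constructor
    · calc (1 - a) ^ (1/p) * s * N ≤ (1 - a) ^ (1/p) * S ^ (1/p) := by
            rw [mul_assoc]; exact mul_le_mul_of_nonneg_left (hg i j).1 h1a
        _ = ((1 - a) * S) ^ (1/p) := (Real.mul_rpow (by linarith) hS).symm
        _ ≤ _ := Real.rpow_le_rpow (mul_nonneg (by linarith) hS) (by linarith) (by positivity)
    · have hR' : R ^ (1/p) = (1 + ε) / (1 + e) := by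
        rw [hR_def, ← Real.rpow_mul (div_nonneg (by linarith) (by linarith)),
          mul_one_div_cancel hp0.ne', Real.rpow_one]
      calc T ^ (1/p) ≤ (R * ((1 - a) * S)) ^ (1/p) := by
            refine Real.rpow_le_rpow hT ?_ (by positivity)
            rw [← mul_assoc, ← haR]; linarith
        _ = (1 + ε) / (1 + e) * ((1 - a) ^ (1/p) * S ^ (1/p)) := by
            rw [Real.mul_rpow (by linarith) (mul_nonneg (by linarith) hS), hR',
              Real.mul_rpow (by linarith) hS]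
        _ ≤ (1 + ε) / (1 + e) * ((1 - a) ^ (1/p) * ((1 + e) * (s * N))) :=
            mul_le_mul_of_nonneg_left (mul_le_mul_of_nonneg_left (hg i j).2 h1a)
              (div_nonneg (by linarith) (by linarith))
        _ = _ := by field_simp

/-- In particular the dimension is eventually below every multiple of `n`. -/
theorem sublinear {p : ℝ} [Fact (1 ≤ ENNReal.ofReal p)] (hp : 1 < p) {D : ℝ} (hD : 1 < D)
    {c : ℝ} (hc : 0 < c) :
    ∃ n₀ : ℕ, ∀ (n : ℕ), n₀ ≤ n → ∀ (α : Type*) [MeasurableSpace α] (μ : Measure α)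
      (x : Fin n → Lp ℝ (ENNReal.ofReal p) μ), ∃ (d : ℕ) (f : Fin n → Fin d → ℝ) (s : ℝ),
        (d : ℝ) ≤ c * n ∧ 0 < s ∧
        ∀ i j, s * ‖x i - x j‖ ≤ (∑ l, |f i l - f j l| ^ p) ^ (1/p) ∧
          (∑ l, |f i l - f j l| ^ p) ^ (1/p) ≤ D * (s * ‖x i - x j‖) := by
  obtain ⟨C, hC, h⟩ := subpolynomial (p := p) hp (ε := D - 1) (by linarith) (κ := 1/2) (by norm_num)
  refine ⟨max 2 ⌈(C / c) ^ 2⌉₊, fun n hn α _ μ x => ?_⟩
  obtain ⟨d, f, s, hd, hs, hf⟩ := h n (le_trans (le_max_left _ _) hn) α μ x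
  refine ⟨d, f, s, hd.trans ?_, hs, fun i j => by simpa using hf i j⟩
  have he : (C / c) ^ 2 ≤ (n:ℝ) :=
    (Nat.le_ceil _).trans (by exact_mod_cast le_trans (le_max_right 2 _) hn)
  have hs2 : C / c ≤ Real.sqrt n := Real.le_sqrt_of_sq_le he
  rw [div_le_iff₀ hc] at hs2
  rw [← Real.sqrt_eq_rpow]
  calc C * Real.sqrt n ≤ Real.sqrt n * c * Real.sqrt n :=
        mul_le_mul_of_nonneg_right hs2 (Real.sqrt_nonneg _)
    _ = c * (Real.sqrt n * Real.sqrt n) := by ring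
    _ = c * n := by rw [Real.mul_self_sqrt (Nat.cast_nonneg n)]

end Vale.Agent.P249x
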