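import Mathlib

/-!
# Uniform sampling of coordinates
-/

namespace Vale.Agent.P249x

open Finset

namespace Sample

lemma exp_le_quad {t : ℝ} (ht : |t| ≤ 1) : Real.exp t - 1 ≤ t + t ^ 2 := by
  linarith [(abs_le.1 (Real.abs_exp_sub_one_sub_id_le ht)).2]

/-- Exponential moment of a `[0,1]`-valued variable under the uniform weights. -/
lemma mgf_le {Ω : Type*} [Fintype Ω] [Nonempty Ω] (u : Ω → ℝ) (h0 : ∀ o, 0 ≤ u o) (h1 : ∀ o, u o ≤ 1)
    {t : ℝ} (ht : |t| ≤ 1) :
    (∑ o, Real.exp (t * u o)) / Fintype.card Ω ≤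
      Real.exp ((t + t ^ 2) * ((∑ o, u o) / Fintype.card Ω)) := by
  have hc : (0:ℝ) < Fintype.card Ω := by exact_mod_cast Fintype.card_pos
  refine le_trans ?_ (Real.add_one_le_exp _)
  rw [div_le_iff₀ hc]
  have h : ∀ o, Real.exp (t * u o) ≤ 1 + (t + t ^ 2) * u o := by
    intro o
    have h := convexOn_exp.2 (Set.mem_univ (0:ℝ)) (Set.mem_univ t) (sub_nonneg.2 (h1 o)) (h0 o)
      (sub_add_cancel 1 (u o))
    simp only [smul_eq_mul, mul_zero, zero_add, Real.exp_zero, mul_one] at h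
    rw [mul_comm t]
    linarith [mul_le_mul_of_nonneg_right (exp_le_quad ht) (h0 o)]
  refine (sum_le_sum fun o _ => h o).trans (le_of_eq ?_)
  rw [sum_add_distrib, ← mul_sum, sum_const, card_univ, nsmul_eq_mul]
  field_simp
  ring

/-- Sampling with relative and additive error, derandomised. -/
lemma chernoff {Ω P : Type*} [Fintype Ω] [Nonempty Ω] [Fintype P] (u : P → Ω → ℝ)
    (h0 : ∀ e o, 0 ≤ u e o) (h1 : ∀ e o, u e o ≤ 1) {θ : ℝ} (hθ : 0 < θ) (hθ1 : θ ≤ 1) (m : ℕ) :
    ∃ ω : Fin m → Ω, ∀ e, |(∑ l, u e (ω l)) - m * ((∑ o, u e o) / Fintype.card Ω)| ≤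
      θ * (m * ((∑ o, u e o) / Fintype.card Ω)) + Real.log (2 * Fintype.card P) / θ := by
  classical
  have hc : (0:ℝ) < Fintype.card Ω := by exact_mod_cast Fintype.card_pos
  set μ : P → ℝ := fun e => (∑ o, u e o) / Fintype.card Ω with hμ
  let G : ∀ l : ℕ, (Fin l → Ω) → P → ℝ := fun l ω e =>
    Real.exp (θ * (∑ i, u e (ω i)) - (θ + θ ^ 2) * (l * μ e)) +
      Real.exp (-θ * (∑ i, u e (ω i)) - (-θ + θ ^ 2) * (l * μ e))
  have key : ∀ l : ℕ, ∃ ω : Fin l → Ω, ∑ e, G l ω e ≤ 2 * Fintype.card P := by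
    intro l
    induction l with
    | zero => exact ⟨Fin.elim0, by simp [G]; ring_nf; exact le_rfl⟩
    | succ l ih =>
      obtain ⟨ω, hω⟩ := ih
      have hone : ∀ t : ℝ, |t| ≤ 1 → ∀ e : P, (∑ o, Real.exp (t * (∑ i : Fin (l + 1),
            u e ((Fin.cons o ω : Fin (l + 1) → Ω) i)) - (t + t ^ 2) * ((l + 1 : ℕ) * μ e))) /
            Fintype.card Ω ≤ Real.exp (t * (∑ i, u e (ω i)) - (t + t ^ 2) * (l * μ e)) := by
        intro t ht e
        have e1 : ∀ o, Real.exp (t * (∑ i : Fin (l + 1), u e ((Fin.cons o ω : Fin (l + 1) → Ω) i))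
            - (t + t ^ 2) * ((l + 1 : ℕ) * μ e)) =
            Real.exp (t * (∑ i, u e (ω i)) - (t + t ^ 2) * (l * μ e) - (t + t ^ 2) * μ e) *
              Real.exp (t * u e o) := by
          intro o
          rw [← Real.exp_add, Fin.sum_univ_succ]
          simp only [Fin.cons_zero, Fin.cons_succ]
          congr 1
          push_cast
          ring
        simp only [e1, ← mul_sum, mul_div_assoc]
        refine (mul_le_mul_of_nonneg_left (mgf_le _ (h0 e) (h1 e) ht) (Real.exp_pos _).le).trans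
          (le_of_eq ?_)
        rw [← Real.exp_add]
        congr 1
        simp only [hμ]
        ring
      have hstep : ∀ e, (∑ o, G (l + 1) (Fin.cons o ω) e) / Fintype.card Ω ≤ G l ω e := by
        intro e
        simp only [G, sum_add_distrib, add_div]
        have hp := hone θ (by rwa [abs_of_pos hθ]) e
        have hn := hone (-θ) (by rwa [abs_neg, abs_of_pos hθ]) e
        rw [neg_sq] at hn
        exact add_le_add hp hn
      have hsum : (∑ o, ∑ e, G (l + 1) (Fin.cons o ω) e) / Fintype.card Ω ≤ 2 * Fintype.card P := by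
        rw [sum_comm, sum_div]
        exact (sum_le_sum fun e _ => hstep e).trans hω
      by_contra hne
      push Not at hne
      rw [div_le_iff₀ hc] at hsum
      have := sum_lt_sum_of_nonempty (univ_nonempty (α := Ω)) fun o _ => hne (Fin.cons o ω)
      rw [sum_const, card_univ, nsmul_eq_mul] at this
      linarith
  obtain ⟨ω, hω⟩ := key m
  refine ⟨ω, fun e => ?_⟩
  have hP : (0:ℝ) < 2 * Fintype.card P := by
    have : 0 < Fintype.card P := Fintype.card_pos_iff.2 ⟨e⟩
    positivity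
  have hle : G m ω e ≤ Real.exp (Real.log (2 * Fintype.card P)) := by
    rw [Real.exp_log hP]
    exact (single_le_sum (f := G m ω) (fun e' _ => by simp only [G]; positivity) (mem_univ e)).trans hω
  have hA := Real.exp_le_exp.1 (le_trans (le_add_of_nonneg_right (Real.exp_pos _).le) hle)
  have hB := Real.exp_le_exp.1 (le_trans (le_add_of_nonneg_left (Real.exp_pos _).le) hle)
  show |(∑ l, u e (ω l)) - m * μ e| ≤ θ * (m * μ e) + Real.log (2 * Fintype.card P) / θ
  set S := ∑ l, u e (ω l)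
  set q := (m:ℝ) * μ e
  set Z := Real.log (2 * Fintype.card P) with hZ
  have hZ' : θ * (Z / θ) = Z := mul_div_cancel₀ _ hθ.ne'
  rw [abs_le]
  constructor
  · refine le_of_mul_le_mul_left ?_ hθ
    linarith [show θ * -(θ * q + Z / θ) = -(θ ^ 2 * q) - θ * (Z / θ) by ring,
      show θ * (S - q) = θ * S - θ * q by ring, show (-θ + θ ^ 2) * q = -(θ * q) + θ ^ 2 * q by ring]
  · refine le_of_mul_le_mul_left ?_ hθ
    linarith [show θ * (θ * q + Z / θ) = θ ^ 2 * q + θ * (Z / θ) by ring,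
      show θ * (S - q) = θ * S - θ * q by ring, show (θ + θ ^ 2) * q = θ * q + θ ^ 2 * q by ring]

end Sample

/-- Uniform sampling of coordinates: dimension `M K log n`, additive error `δ T`. -/
theorem sample_coords {p : ℝ} (hp : 1 ≤ p) {δ : ℝ} (hδ : 0 < δ) :
    ∃ C : ℝ, ∀ (n : ℕ), 2 ≤ n → ∀ (M : ℕ) (h : Fin n → Fin M → ℝ) (T : Fin n → Fin n → ℝ) (K : ℝ),
      0 ≤ K → (∀ i j, 0 ≤ T i j) → (∀ i j k, |h i k - h j k| ^ p ≤ K * T i j) →
      ∃ (d : ℕ) (f : Fin n → Fin d → ℝ), (d : ℝ) ≤ C * (M * K * Real.log n) + 1 ∧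
        ∀ i j, |(∑ k, |f i k - f j k| ^ p) - ∑ k, |h i k - h j k| ^ p| ≤
          δ * ((∑ k, |h i k - h j k| ^ p) + T i j) := by
  classical
  set θ : ℝ := min δ 1 with hθdef
  have hθ : 0 < θ := lt_min hδ one_pos
  refine ⟨3 / (θ * δ), fun n hn M h T K hK hT hb => ?_⟩
  have hp0 : 0 < p := by linarith
  have hn2 : (2:ℝ) ≤ n := by exact_mod_cast hn
  have hl : 0 < Real.log n := Real.log_pos (by linarith)
  have hS0 : ∀ i j, 0 ≤ ∑ k, |h i k - h j k| ^ p := fun i j => sum_nonneg fun k _ => by positivity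
  by_cases hMK : (M:ℝ) * K = 0
  · refine ⟨0, fun _ => Fin.elim0, by simp [hMK], fun i j => ?_⟩
    have hz : ∑ k, |h i k - h j k| ^ p = 0 := by
      refine sum_eq_zero fun k _ => le_antisymm ?_ (by positivity)
      rcases mul_eq_zero.1 hMK with h0 | h0
      · exact absurd k.isLt (by have : M = 0 := by exact_mod_cast h0
                                omega)
      · simpa [h0] using hb i j k
    rw [hz]
    simp only [univ_eq_empty, sum_empty, sub_zero, abs_zero, zero_add]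
    exact mul_nonneg hδ.le (hT i j)
  obtain ⟨hM, hK'⟩ := mul_ne_zero_iff.1 hMK
  have hKp : 0 < K := lt_of_le_of_ne hK (Ne.symm hK')
  have hMp : (0:ℝ) < M := lt_of_le_of_ne (Nat.cast_nonneg M) (Ne.symm hM)
  have : Nonempty (Fin M) := ⟨⟨0, by exact_mod_cast hMp⟩⟩
  set m : ℕ := ⌈3 / (θ * δ) * ((M:ℝ) * K * Real.log n)⌉₊ with hmdef
  have hX : 0 < 3 / (θ * δ) * ((M:ℝ) * K * Real.log n) := by positivity
  have hm : (0:ℝ) < m := lt_of_lt_of_le hX (Nat.le_ceil _)
  let u : Fin n × Fin n → Fin M → ℝ := fun e k => |h e.1 k - h e.2 k| ^ p / (K * T e.1 e.2)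
  have hu1 : ∀ e k, u e k ≤ 1 := fun e k =>
    div_le_one_of_le₀ (hb _ _ _) (mul_nonneg hK (hT _ _))
  obtain ⟨ω, hω⟩ := Sample.chernoff u (fun e k => by have := hT e.1 e.2; positivity) hu1 hθ
    (min_le_right _ _) m
  refine ⟨m, fun i l => ((M:ℝ) / m) ^ (1 / p) * h i (ω l), (Nat.ceil_lt_add_one hX.le).le, fun i j => ?_⟩
  have hf : ∑ l, |((M:ℝ) / m) ^ (1 / p) * h i (ω l) - ((M:ℝ) / m) ^ (1 / p) * h j (ω l)| ^ p =
      (M:ℝ) / m * ∑ l, |h i (ω l) - h j (ω l)| ^ p := by
    rw [mul_sum]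
    refine sum_congr rfl fun l _ => ?_
    rw [← mul_sub, abs_mul, abs_of_nonneg (by positivity), Real.mul_rpow (by positivity) (abs_nonneg _),
      ← Real.rpow_mul (by positivity), one_div_mul_cancel hp0.ne', Real.rpow_one]
  rw [hf]
  rcases (hT i j).eq_or_lt with h0 | h0
  · have hz : ∀ k, |h i k - h j k| ^ p = 0 := fun k =>
      le_antisymm (by simpa [← h0] using hb i j k) (by positivity)
    simp [hz, ← h0]
  set S := ∑ k, |h i k - h j k| ^ p with hS
  have hKT : 0 < K * T i j := mul_pos hKp h0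
  have h2 := hω (i, j)
  simp only [u, ← sum_div, ← hS, Fintype.card_fin, Fintype.card_prod, Nat.cast_mul] at h2
  have hlog : Real.log (2 * ((n:ℝ) * n)) ≤ 3 * Real.log n := by
    rw [Real.log_mul two_ne_zero (by positivity), Real.log_mul (by positivity) (by positivity)]
    linarith [Real.log_le_log (by norm_num) hn2]
  have hadd : Real.log (2 * ((n:ℝ) * n)) / θ ≤ δ * (m / ((M:ℝ) * K)) := by
    refine (div_le_div_of_nonneg_right hlog hθ.le).trans ?_
    have := Nat.le_ceil (3 / (θ * δ) * ((M:ℝ) * K * Real.log n))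
    rw [← hmdef, div_mul_eq_mul_div, div_le_iff₀ (by positivity)] at this
    rw [mul_div_assoc', div_le_div_iff₀ hθ (by positivity)]
    linarith
  have hA : (M:ℝ) / m * (K * T i j) *
      ((∑ l, |h i (ω l) - h j (ω l)| ^ p) / (K * T i j) - m * (S / (K * T i j) / M)) =
      (M:ℝ) / m * (∑ l, |h i (ω l) - h j (ω l)| ^ p) - S := by
    field_simp
  rw [← hA, abs_mul, abs_of_pos (show (0:ℝ) < M / m * (K * T i j) by positivity)]
  refine (mul_le_mul_of_nonneg_left (h2.trans (add_le_add le_rfl hadd)) (by positivity)).trans ?_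
  have e : (M:ℝ) / m * (K * T i j) * (θ * (m * (S / (K * T i j) / M)) + δ * (m / ((M:ℝ) * K))) =
      θ * S + δ * T i j := by
    field_simp
  rw [e, mul_add]
  exact add_le_add (mul_le_mul_of_nonneg_right (min_le_left _ _) (hS0 i j)) le_rfl

end Vale.Agent.P249x
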