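import Vale.Agent.P249x.Levels
import Vale.Agent.P249x.Sketch

namespace Vale.Agent.P249x

open Finset Filter

/-- One reduction step `M ↦ n^o(1) (M n^-η + n^4η)`. -/
theorem step {p : ℝ} (hp : 1 < p) {ε : ℝ} (hε : 0 < ε) {η : ℝ} (hη : 0 < η) :
    ∃ (C : ℝ) (n₀ : ℕ), ∀ n, n₀ ≤ n → ∀ (M : ℕ) (x : Fin n → Fin M → ℝ),
      ∃ (d : ℕ) (f : Fin n → Fin d → ℝ),
        (d : ℝ) ≤ C * (Real.log n * ((M : ℝ) * (n : ℝ) ^ (-η) + (n : ℝ) ^ (4 * η))) ∧
        ∀ i j, |(∑ k, |f i k - f j k| ^ p) - ∑ k, |x i k - x j k| ^ p| ≤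
          ε * ∑ k, |x i k - x j k| ^ p := by
  classical
  have hp0 : 0 < p := by linarith
  set e₀ : ℝ := min (ε / 4) 1 with he₀
  have he0 : 0 < e₀ := lt_min (by positivity) one_pos
  have he1 : e₀ ≤ 1 := min_le_right _ _
  have he4 : e₀ ≤ ε / 4 := min_le_left _ _
  obtain ⟨W, n₁, hW, hdec⟩ := decomp hp he0 hη
  obtain ⟨C₁, hS⟩ := sample_coords hp.le he0
  obtain ⟨C₂, n₂, hHash⟩ := hash_sparse hp.le he0 hη
  refine ⟨W * (max C₁ 0 + 2 * max C₂ 0 + 1), max n₁ (max n₂ 3), fun n hn M x => ?_⟩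
  simp only [max_le_iff] at hn
  have hn3 : (3:ℝ) ≤ n := by exact_mod_cast hn.2.2
  have hn0 : (0:ℝ) < n := by linarith
  have hL : 1 ≤ Real.log n := by
    rw [Real.le_log_iff_exp_le hn0]; linarith [Real.exp_one_lt_d9]
  obtain ⟨H, hH1, hH2, hH3⟩ := hdec n hn.1 M x
  have hs := fun w => hS n (by omega) M (H w) (fun i j => N p (x i) (x j) ^ p) ((n:ℝ) ^ (-η))
    (by positivity) (fun i j => Real.rpow_nonneg (N_nonneg _ _) _) (hH1 w)
  choose d₁ f₁ hd₁ hf₁ using hs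
  have hh := fun w => hHash n hn.2.1 M ⌊(n:ℝ) ^ (3 * η)⌋₊ (fun a k => x a k - H w a k)
    (fun a => Nat.le_floor (hH2 w a))
  choose d₂ f₂ hd₂ hf₂ using hh
  let T := (w : Fin W) × (Fin (d₁ w) ⊕ Fin (d₂ w))
  let g : Fin n → T → ℝ := fun i z => (W:ℝ) ^ (-(1/p)) * Sum.elim (f₁ z.1 i) (f₂ z.1 i) z.2
  refine ⟨Fintype.card T, fun i k => g i ((Fintype.equivFin T).symm k), ?_, fun i j => ?_⟩
  · simp only [T, Fintype.card_sigma, Fintype.card_sum, Fintype.card_fin, Nat.cast_sum, Nat.cast_add]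
    have hb : ∀ w, (d₁ w : ℝ) + d₂ w ≤ (max C₁ 0 + 2 * max C₂ 0 + 1) *
        (Real.log n * ((M:ℝ) * (n:ℝ) ^ (-η) + (n:ℝ) ^ (4 * η))) := by
      intro w
      have hU : ((⌊(n:ℝ) ^ (3 * η)⌋₊ : ℝ) + 1) * (n:ℝ) ^ η ≤ 2 * (n:ℝ) ^ (4 * η) := by
        rw [show 4 * η = 3 * η + η by ring, Real.rpow_add hn0, ← mul_assoc]
        refine mul_le_mul_of_nonneg_right ?_ (by positivity)
        linarith [Nat.floor_le (show 0 ≤ (n:ℝ) ^ (3 * η) by positivity),
          Real.one_le_rpow (show (1:ℝ) ≤ n by linarith) (show 0 ≤ 3 * η by positivity)]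
      have q0 : 0 ≤ (M:ℝ) * (n:ℝ) ^ (-η) * Real.log n := by positivity
      have q4 : 1 ≤ (n:ℝ) ^ (4 * η) * Real.log n :=
        one_le_mul_of_one_le_of_one_le (Real.one_le_rpow (by linarith) (by positivity)) hL
      have a1 := (hd₁ w).trans (add_le_add (mul_le_mul_of_nonneg_right (le_max_left C₁ 0) q0) le_rfl)
      have a2 := (hd₂ w).trans (mul_le_mul (le_max_left C₂ 0)
        (mul_le_mul_of_nonneg_right hU (by linarith)) (by positivity) (le_max_right _ _))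
      have q5 : 0 ≤ max C₁ 0 * ((n:ℝ) ^ (4 * η) * Real.log n) :=
        mul_nonneg (le_max_right _ _) (by linarith)
      have q6 : 0 ≤ max C₂ 0 * ((M:ℝ) * (n:ℝ) ^ (-η) * Real.log n) := mul_nonneg (le_max_right _ _) q0
      linarith
    refine (sum_le_sum fun w _ => hb w).trans (le_of_eq ?_)
    rw [sum_const, card_univ, Fintype.card_fin, nsmul_eq_mul, mul_assoc]
  · have hWR : (0:ℝ) < W := by exact_mod_cast hW
    rw [(Fintype.equivFin T).symm.sum_comp (fun z => |g i z - g j z| ^ p)]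
    have hsum : ∑ z, |g i z - g j z| ^ p = (∑ w, ((∑ k, |f₁ w i k - f₁ w j k| ^ p) +
        ∑ k, |f₂ w i k - f₂ w j k| ^ p)) / W := by
      rw [Fintype.sum_sigma (f := fun z : T => |g i z - g j z| ^ p), sum_div]
      refine sum_congr rfl fun w _ => ?_
      rw [Fintype.sum_sum_type, add_div, sum_div, sum_div]
      simp only [g, Sum.elim_inl, Sum.elim_inr, ← mul_sub, abs_mul,
        abs_of_pos (show 0 < (W:ℝ) ^ (-(1/p)) by positivity)]
      simp only [Real.mul_rpow (show 0 ≤ (W:ℝ) ^ (-(1/p)) by positivity) (abs_nonneg _),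
        ← Real.rpow_mul hWR.le, show -(1/p) * p = -1 by field_simp, Real.rpow_neg_one, inv_mul_eq_div]
    rw [hsum, ← N_rpow (p := p) (x i) (x j) hp0]
    set X := N p (x i) (x j) ^ p with hX
    have hX0 : 0 ≤ X := Real.rpow_nonneg (N_nonneg _ _) _
    set a := fun w => ∑ k, |H w i k - H w j k| ^ p
    set b := fun w => ∑ k, |(x i k - H w i k) - (x j k - H w j k)| ^ p
    have h3 : |(∑ w, (a w + b w)) / W - X| ≤ e₀ * X := hH3 i j
    have hup : (∑ w, (a w + b w)) / W ≤ 2 * X := by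
      linarith [(abs_le.1 h3).2, mul_le_mul_of_nonneg_right he1 hX0]
    have hw : |(∑ w, ((∑ k, |f₁ w i k - f₁ w j k| ^ p) + ∑ k, |f₂ w i k - f₂ w j k| ^ p)) / W -
        (∑ w, (a w + b w)) / W| ≤ e₀ * (3 * X) := by
      rw [← sub_div, ← sum_sub_distrib, abs_div, Nat.abs_cast, div_le_iff₀ hWR]
      refine (abs_sum_le_sum_abs _ _).trans ((sum_le_sum (g := fun w => e₀ * ((a w + b w) + X))
        fun w _ => ?_).trans ?_)
      · have h1 : |(∑ k, |f₁ w i k - f₁ w j k| ^ p) - a w| ≤ e₀ * (a w + X) := hf₁ w i j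
        have h2 : |(∑ k, |f₂ w i k - f₂ w j k| ^ p) - b w| ≤ e₀ * b w := hf₂ w i j
        rw [abs_le] at h1 h2 ⊢
        constructor <;> linarith
      · rw [← mul_sum, sum_add_distrib, sum_const, card_univ, Fintype.card_fin, nsmul_eq_mul,
          mul_assoc]
        rw [div_le_iff₀ hWR] at hup
        exact mul_le_mul_of_nonneg_left (by linarith) he0.le
    have h4 := mul_le_mul_of_nonneg_right he4 hX0
    rw [abs_le] at h3 hw ⊢
    constructor <;> linarith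

end Vale.Agent.P249x
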